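import Vale.Agent.P188.H131.HaarE

/-!
Haar measure of the real group `R.NR` as a product over an ideal `e` and a complement `W`.
-/

open MeasureTheory MeasureTheory.Measure Topology Set Filter Vale.Agent.P188.H796
  Vale.Agent.P188.H615
open scoped ENNReal

set_option linter.unusedSectionVars false

universe u v

namespace Vale.Agent.P188.H131

variable {N : Type u} [Group N] {d n : ℕ} {D : MB N d n} {A : Type v} [NormedRing A]
  [NormedAlgebra ℝ A] [FiniteDimensional ℝ A] (R : RD D A)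

/-- relative lower central series `[V, [V, .. [V, e]]]` -/
noncomputable def rgam (e : Submodule ℝ R.V) : ℕ → Submodule ℝ R.V
  | 0 => e
  | i + 1 => Submodule.span ℝ {z | ∃ x : R.V, ∃ y ∈ rgam e i, ⁅x, y⁆ = z}

/-- the flag -/
noncomputable def flg (e : Submodule ℝ R.V) (i : ℕ) : Submodule ℝ R.V :=
  if i < R.m then gam R ⊤ i ⊔ e else rgam R e (i - R.m)

variable {R} {e : Submodule ℝ R.V}

theorem lie_mem_rgam {i : ℕ} {x y : R.V} (hy : y ∈ rgam R e i) :
    ⁅x, y⁆ ∈ rgam R e (i + 1) := Submodule.subset_span ⟨x, y, hy, rfl⟩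

theorem rgam_le (hid : ∀ x : R.V, ∀ y ∈ e, ⁅x, y⁆ ∈ e) (i : ℕ) : rgam R e i ≤ e := by
  induction i with
  | zero => exact le_rfl
  | succ i ih =>
    refine Submodule.span_le.2 ?_
    rintro _ ⟨x, y, hy, rfl⟩
    exact hid x y (ih hy)

theorem rgam_succ_le (hid : ∀ x : R.V, ∀ y ∈ e, ⁅x, y⁆ ∈ e) (i : ℕ) :
    rgam R e (i + 1) ≤ rgam R e i := by
  induction i with
  | zero => exact rgam_le hid 1
  | succ i ih =>
    refine Submodule.span_le.2 ?_
    rintro _ ⟨x, y, hy, rfl⟩
    exact lie_mem_rgam (ih hy)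

theorem rgam_le_gam (i : ℕ) : rgam R e i ≤ gam R ⊤ i := by
  induction i with
  | zero => exact le_top
  | succ i ih =>
    refine Submodule.span_le.2 ?_
    rintro _ ⟨x, y, hy, rfl⟩
    exact lie_mem_gam Submodule.mem_top (ih hy)

theorem top_lie : ∀ x ∈ (⊤ : Submodule ℝ R.V), ∀ y ∈ (⊤ : Submodule ℝ R.V),
    ⁅x, y⁆ ∈ (⊤ : Submodule ℝ R.V) := fun _ _ _ _ => Submodule.mem_top

theorem flg_zero : flg R e 0 = ⊤ := by
  rw [flg, if_pos R.hm0]
  exact eq_top_iff.2 le_sup_left

theorem flg_last : flg R e (R.m + R.m) = ⊥ := by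
  rw [flg, if_neg (by omega), eq_bot_iff]
  refine (rgam_le_gam _).trans ?_
  rw [gam_eq_bot (by omega)]

theorem flg_lie (hid : ∀ x : R.V, ∀ y ∈ e, ⁅x, y⁆ ∈ e) (i : ℕ) {x y : R.V} (hy : y ∈ flg R e i) :
    ⁅x, y⁆ ∈ flg R e (i + 1) := by
  unfold flg at hy ⊢
  by_cases h : i < R.m
  · rw [if_pos h] at hy
    by_cases h' : i + 1 < R.m
    · rw [if_pos h']
      rw [Submodule.mem_sup] at hy
      obtain ⟨a, ha, b, hb, rfl⟩ := hy
      rw [lie_add]
      exact Submodule.add_mem _ (Submodule.mem_sup_left (lie_mem_gam Submodule.mem_top ha))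
        (Submodule.mem_sup_right (hid _ _ hb))
    · rw [if_neg h', show i + 1 - R.m = 0 by omega]
      rw [gam_eq_bot (by omega), bot_sup_eq] at hy
      exact hid _ _ hy
  · rw [if_neg h] at hy
    rw [if_neg (by omega), show i + 1 - R.m = (i - R.m) + 1 by omega]
    exact lie_mem_rgam hy

theorem flg_succ_le (hid : ∀ x : R.V, ∀ y ∈ e, ⁅x, y⁆ ∈ e) (i : ℕ) :
    flg R e (i + 1) ≤ flg R e i := by
  unfold flg
  by_cases h : i < R.m
  · rw [if_pos h]
    by_cases h' : i + 1 < R.m
    · rw [if_pos h']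
      exact sup_le_sup_right (gam_succ_le top_lie i) _
    · rw [if_neg h', show i + 1 - R.m = 0 by omega]
      exact le_sup_right
  · rw [if_neg h, if_neg (by omega), show i + 1 - R.m = (i - R.m) + 1 by omega]
    exact rgam_succ_le hid _

theorem flg_split (hid : ∀ x : R.V, ∀ y ∈ e, ⁅x, y⁆ ∈ e) (i : ℕ) {a b : R.V} (ha : a ∈ e)
    (h : a + b ∈ flg R e i) (hb : a + b ∈ e → b = 0) : a ∈ flg R e i ∧ b ∈ flg R e i := by
  unfold flg at h ⊢
  by_cases hi : i < R.m
  · rw [if_pos hi] at h ⊢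
    have h1 : a ∈ gam R ⊤ i ⊔ e := Submodule.mem_sup_right ha
    refine ⟨h1, ?_⟩
    have := Submodule.sub_mem _ h h1
    rwa [add_sub_cancel_left] at this
  · rw [if_neg hi] at h ⊢
    have h1 := hb (rgam_le hid _ h)
    subst h1
    rw [add_zero] at h
    exact ⟨h, Submodule.zero_mem _⟩

/-- changing the left factor -/
theorem Lo_Ex_add_mul (R : RD D A) {I I' : Submodule ℝ R.V} (hI' : I' ≤ I)
    (hb : ∀ x : R.V, ∀ y ∈ I, ⁅x, y⁆ ∈ I') (x : R.NR) {v w : R.V} (hw : w ∈ I) :
    R.Lo (R.Ex (v + w) * x) - R.Lo (R.Ex v * x) - w ∈ I' := by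
  have h := Lo_mul_Ex_add' R (H := ⊤) le_top hI' (fun x _ y hy => hb x y hy) x⁻¹ (v := -v)
    (w := -w) Submodule.mem_top (I.neg_mem hw) Submodule.mem_top
  have h1 : ∀ y : R.V, R.Lo (x⁻¹ * R.Ex (-y)) = - R.Lo (R.Ex y * x) := by
    intro y
    rw [← Lo_inv, mul_inv_rev, R.Ex_neg]
  rw [← neg_add, h1, h1] at h
  have h2 := I'.neg_mem h
  have h3 : -(-R.Lo (R.Ex (v + w) * x) - -R.Lo (R.Ex v * x) - -w) =
    R.Lo (R.Ex (v + w) * x) - R.Lo (R.Ex v * x) - w := by abel
  rwa [h3] at h2

/-- translations in logarithmic coordinates preserve Lebesgue measure on `V` -/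
theorem mp_LTV [MeasurableSpace A] [BorelSpace A] (R : RD D A) (μ : Measure R.V)
    [μ.IsAddHaarMeasure] (x : R.NR) : MeasurePreserving (fun v => R.Lo (x * R.Ex v)) μ μ := by
  refine tri_mp μ ?_ ?_ (fun i => gam R ⊤ i) rfl (c := R.m) (gam_eq_bot (by omega)) ?_
  · have h : (fun v => R.Lo (x * R.Ex v)) =
        fun v : R.V => (LT top_lie ⟨x, show R.Lo x ∈ (⊤ : Submodule ℝ R.V) from Submodule.mem_top⟩
          (⟨v, Submodule.mem_top⟩ : (⊤ : Submodule ℝ R.V)) : R.V) := rfl
    rw [h]
    have h1 : Differentiable ℝ (fun v : R.V => (⟨v, Submodule.mem_top⟩ : (⊤ : Submodule ℝ R.V))) := by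
      have : (fun v : R.V => (⟨v, Submodule.mem_top⟩ : (⊤ : Submodule ℝ R.V))) =
        (LinearMap.toContinuousLinearMap
          ((Submodule.topEquiv (R := ℝ) (M := R.V)).symm : R.V →ₗ[ℝ] (⊤ : Submodule ℝ R.V))) := rfl
      rw [this]
      exact ContinuousLinearMap.differentiable _
    have h2 : Differentiable ℝ (fun v : (⊤ : Submodule ℝ R.V) => (v : R.V)) :=
      (⊤ : Submodule ℝ R.V).subtypeL.differentiable
    have h3 := differentiable_LT (R := R) top_lie
      ⟨x, show R.Lo x ∈ (⊤ : Submodule ℝ R.V) from Submodule.mem_top⟩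
    have h4 : Differentiable ℝ (fun v : R.V => LT top_lie
        ⟨x, show R.Lo x ∈ (⊤ : Submodule ℝ R.V) from Submodule.mem_top⟩
        (⟨v, Submodule.mem_top⟩ : (⊤ : Submodule ℝ R.V))) := Differentiable.comp
        (g := LT top_lie ⟨x, show R.Lo x ∈ (⊤ : Submodule ℝ R.V) from Submodule.mem_top⟩)
        (f := fun v : R.V => (⟨v, Submodule.mem_top⟩ : (⊤ : Submodule ℝ R.V))) h3 h1
    exact Differentiable.comp (g := fun v : (⊤ : Submodule ℝ R.V) => (v : R.V))
      (f := fun v : R.V => LT top_lie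
        ⟨x, show R.Lo x ∈ (⊤ : Submodule ℝ R.V) from Submodule.mem_top⟩
        (⟨v, Submodule.mem_top⟩ : (⊤ : Submodule ℝ R.V))) h2 h4
  · constructor
    · intro v w h
      have := congrArg R.Ex h
      simp only [R.Ex_Lo] at this
      exact R.Ex_injective (mul_left_cancel this)
    · intro v
      refine ⟨R.Lo (x⁻¹ * R.Ex v), ?_⟩
      simp only [R.Ex_Lo, mul_inv_cancel_left, R.Lo_Ex]
  · intro i v u hu
    exact Lo_mul_Ex_add' R (H := ⊤) le_top (gam_succ_le top_lie i)
      (fun x hx y hy => lie_mem_gam Submodule.mem_top hy) x Submodule.mem_top hu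
      Submodule.mem_top

/-- the image of Lebesgue measure under `Ex` -/
noncomputable def muK [MeasurableSpace A] [BorelSpace A] (R : RD D A) (μ : Measure R.V) :
    Measure R.NR := μ.map R.Ex

theorem isHaar_muK [MeasurableSpace A] [BorelSpace A] (R : RD D A) (μ : Measure R.V)
    [μ.IsAddHaarMeasure] : IsHaarMeasure (muK R μ) where
  lt_top_of_isCompact := by
    intro K hK
    unfold muK
    rw [map_apply R.continuous_Ex.measurable hK.measurableSet]
    have : R.Ex ⁻¹' K = R.Lo '' K := by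
      ext v
      constructor
      · intro hv; exact ⟨_, hv, R.Lo_Ex v⟩
      · rintro ⟨k, hk, rfl⟩
        rw [mem_preimage, R.Ex_Lo]; exact hk
    rw [this]
    exact (hK.image R.continuous_Lo).measure_lt_top
  map_mul_left_eq_self := by
    intro x
    unfold muK
    rw [map_map (measurable_const_mul x) R.continuous_Ex.measurable]
    conv_rhs => rw [← (mp_LTV R μ x).map_eq]
    rw [map_map R.continuous_Ex.measurable (mp_LTV R μ x).measurable]
    congr 1
    funext v
    simp only [Function.comp, R.Ex_Lo]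
  open_pos := by
    intro U hU hne
    unfold muK
    rw [map_apply R.continuous_Ex.measurable hU.measurableSet]
    refine (hU.preimage R.continuous_Ex).measure_ne_zero μ ?_
    obtain ⟨k, hk⟩ := hne
    exact ⟨R.Lo k, by rw [mem_preimage, R.Ex_Lo]; exact hk⟩

section prod

variable (R) (W : Submodule ℝ R.V) (hW : IsCompl e W)

/-- projection to `W` -/
noncomputable def prW : R.V →ₗ[ℝ] W := Submodule.projectionOnto W e hW.symm

/-- projection to `e` -/
noncomputable def prE : R.V →ₗ[ℝ] e := Submodule.projectionOnto e W hW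

theorem pr_add (v : R.V) : (prE R W hW v : R.V) + (prW R W hW v : R.V) = v := by
  unfold prE prW
  rw [Submodule.coe_projectionOnto_apply, Submodule.coe_projectionOnto_apply]
  exact LinearMap.congr_fun (Submodule.projection_add_projection_eq_id hW) v

theorem prW_e {v : R.V} (hv : v ∈ e) : prW R W hW v = 0 :=
  (Submodule.projectionOnto_apply_eq_zero_iff hW.symm).2 hv

theorem prW_coe (w : W) : prW R W hW w = w := Submodule.projectionOnto_apply_left hW.symm w

theorem prE_coe (w : e) : prE R W hW w = w := Submodule.projectionOnto_apply_left hW w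

theorem prW_eq_iff {v w : R.V} : prW R W hW v = prW R W hW w ↔ v - w ∈ e := by
  rw [← sub_eq_zero, ← map_sub]
  exact Submodule.projectionOnto_apply_eq_zero_iff hW.symm

/-- `x + w ↦ log (exp x exp w)` -/
noncomputable def fEW (v : R.V) : R.V := R.Lo (R.Ex (prE R W hW v) * R.Ex (prW R W hW v))

theorem Ex_fEW (v : R.V) : R.Ex (fEW R W hW v) = R.Ex (prE R W hW v) * R.Ex (prW R W hW v) := by
  rw [fEW, R.Ex_Lo]

variable (hid : ∀ x : R.V, ∀ y ∈ e, ⁅x, y⁆ ∈ e)

include hid

theorem Lo_Ex_mul_sub {a w : R.V} (ha : a ∈ e) : R.Lo (R.Ex a * R.Ex w) - w ∈ e := by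
  have h := Lo_Ex_add_mul R (I := e) (I' := e) le_rfl hid (R.Ex w) (v := 0) ha
  rw [zero_add, R.Ex_zero, one_mul, R.Lo_Ex] at h
  have := e.add_mem h ha
  rwa [sub_add_cancel] at this

theorem Lo_mul_Ex_neg {v w : R.V} (h : v - w ∈ e) : R.Lo (R.Ex v * (R.Ex w)⁻¹) ∈ e := by
  have h1 := Lo_Ex_add_mul R (I := e) (I' := e) le_rfl hid (R.Ex w)⁻¹ (v := w) h
  rw [add_sub_cancel, mul_inv_cancel, Lo_one, sub_zero] at h1
  have := e.add_mem h1 h
  rwa [sub_add_cancel] at this

theorem fEW_bijective : Function.Bijective (fEW R W hW) := by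
  constructor
  · intro v w h
    have h1 : prW R W hW v = prW R W hW w := by
      have e1 := Lo_Ex_mul_sub R hid (a := (prE R W hW v : R.V)) (w := prW R W hW v)
        (prE R W hW v).2
      have e2 := Lo_Ex_mul_sub R hid (a := (prE R W hW w : R.V)) (w := prW R W hW w)
        (prE R W hW w).2
      rw [← prW_eq_iff R W hW, prW_coe] at e1 e2
      rw [← e1, ← e2]
      exact congrArg _ h
    have h2 := congrArg R.Ex h
    rw [Ex_fEW, Ex_fEW, h1] at h2
    have h3 := R.Ex_injective (mul_right_cancel h2)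
    rw [← pr_add R W hW v, ← pr_add R W hW w, h1, h3]
  · intro y
    let w := prW R W hW y
    have hy : y - w ∈ e := by
      have := pr_add R W hW y
      have h2 : y - w = prE R W hW y := sub_eq_of_eq_add this.symm
      rw [h2]; exact (prE R W hW y).2
    have h1 := Lo_mul_Ex_neg R hid hy
    let x : e := ⟨R.Lo (R.Ex y * (R.Ex w)⁻¹), h1⟩
    have hE : prE R W hW ((x : R.V) + w) = x := by
      rw [map_add, prE_coe]
      have : prE R W hW (w : R.V) = 0 :=
        (Submodule.projectionOnto_apply_eq_zero_iff hW).2 w.2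
      rw [this, add_zero]
    have hW' : prW R W hW ((x : R.V) + w) = w := by
      rw [map_add, prW_coe, prW_e R W hW x.2, zero_add]
    refine ⟨(x : R.V) + w, ?_⟩
    rw [fEW, hE, hW']
    show R.Lo (R.Ex (R.Lo (R.Ex y * (R.Ex w)⁻¹)) * R.Ex w) = y
    rw [R.Ex_Lo, inv_mul_cancel_right, R.Lo_Ex]

omit hid in
theorem differentiable_fEW : Differentiable ℝ (fEW R W hW) := by
  obtain ⟨p, hp⟩ := exists_left_inverse (R := R) ⊤
  have h : fEW R W hW = fun v : R.V => ((p (lg R.m (ex R.m (((prE R W hW v : e) : R.V) : A) *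
      ex R.m (((prW R W hW v : W) : R.V) : A))) : (⊤ : Submodule ℝ R.V)) : R.V) := by
    funext v
    have h1 := coe_Lo_mul_Ex R (R.Ex (prE R W hW v : R.V)) (prW R W hW v : R.V)
    rw [R.toA_Ex] at h1
    have h2 := hp (⟨fEW R W hW v, Submodule.mem_top⟩ : (⊤ : Submodule ℝ R.V))
    rw [← h1]
    exact (congrArg Subtype.val h2).symm
  rw [h]
  have e1 : Differentiable ℝ (fun v : R.V => (((prE R W hW v : e) : R.V) : A)) := by
    have : (fun v : R.V => (((prE R W hW v : e) : R.V) : A)) =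
      (R.V.subtypeL.comp (e.subtypeL.comp (LinearMap.toContinuousLinearMap (prE R W hW))) :
        R.V →L[ℝ] A) := rfl
    rw [this]
    exact ContinuousLinearMap.differentiable _
  have e2 : Differentiable ℝ (fun v : R.V => (((prW R W hW v : W) : R.V) : A)) := by
    have : (fun v : R.V => (((prW R W hW v : W) : R.V) : A)) =
      (R.V.subtypeL.comp (W.subtypeL.comp (LinearMap.toContinuousLinearMap (prW R W hW))) :
        R.V →L[ℝ] A) := rfl
    rw [this]
    exact ContinuousLinearMap.differentiable _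
  have e3 : Differentiable ℝ (fun v : R.V => ex R.m (((prE R W hW v : e) : R.V) : A)) :=
    Differentiable.comp (g := fun v : A => ex R.m v)
      (f := fun v : R.V => (((prE R W hW v : e) : R.V) : A)) (differentiable_ex R.m) e1
  have e4 : Differentiable ℝ (fun v : R.V => ex R.m (((prW R W hW v : W) : R.V) : A)) :=
    Differentiable.comp (g := fun v : A => ex R.m v)
      (f := fun v : R.V => (((prW R W hW v : W) : R.V) : A)) (differentiable_ex R.m) e2
  have e5 : Differentiable ℝ (fun v : R.V => ex R.m (((prE R W hW v : e) : R.V) : A) *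
      ex R.m (((prW R W hW v : W) : R.V) : A)) := e3.mul e4
  have e6 : Differentiable ℝ (fun v : R.V => lg R.m (ex R.m (((prE R W hW v : e) : R.V) : A) *
      ex R.m (((prW R W hW v : W) : R.V) : A))) :=
    Differentiable.comp (g := fun v : A => lg R.m v)
      (f := fun v : R.V => ex R.m (((prE R W hW v : e) : R.V) : A) *
      ex R.m (((prW R W hW v : W) : R.V) : A)) (differentiable_lg R.m) e5
  exact Differentiable.comp (g := fun a : A => ((p a : (⊤ : Submodule ℝ R.V)) : R.V))
      (((⊤ : Submodule ℝ R.V).subtypeL.comp p).differentiable) e6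

theorem mp_fEW [MeasurableSpace A] [BorelSpace A] (μ : Measure R.V) [μ.IsAddHaarMeasure] :
    MeasurePreserving (fEW R W hW) μ μ := by
  refine tri_mp μ (differentiable_fEW R W hW) (fEW_bijective R W hW hid) (fun i => flg R e i)
    flg_zero flg_last ?_
  intro i v u hu
  have hs := pr_add R W hW u
  obtain ⟨ha, hb⟩ := flg_split hid i (prE R W hW u).2 (b := (prW R W hW u : R.V))
    (by rw [hs]; exact hu) (by
      rw [hs]; intro h
      rw [prW_e R W hW h]; rfl)
  have h1 := Lo_mul_Ex_add' R (H := ⊤) le_top (flg_succ_le hid i)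
    (fun x _ y hy => flg_lie hid i hy) (R.Ex (prE R W hW (v + u) : R.V))
    (v := (prW R W hW v : R.V)) Submodule.mem_top hb Submodule.mem_top
  have h2 := Lo_Ex_add_mul R (flg_succ_le hid i) (fun x y hy => flg_lie hid i hy)
    (R.Ex (prW R W hW v : R.V)) (v := (prE R W hW v : R.V)) ha
  have h3 := Submodule.add_mem _ h1 h2
  have e1 : fEW R W hW (v + u) = R.Lo (R.Ex (prE R W hW (v + u) : R.V) *
      R.Ex ((prW R W hW v : R.V) + prW R W hW u)) := by
    rw [fEW, map_add (prW R W hW), Submodule.coe_add]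
  have e2 : R.Lo (R.Ex (prE R W hW (v + u) : R.V) * R.Ex (prW R W hW v : R.V)) =
      R.Lo (R.Ex ((prE R W hW v : R.V) + prE R W hW u) * R.Ex (prW R W hW v : R.V)) := by
    rw [map_add (prE R W hW), Submodule.coe_add]
  have e3 : fEW R W hW (v + u) - fEW R W hW v - u =
      R.Lo (R.Ex (prE R W hW (v + u) : R.V) * R.Ex ((prW R W hW v : R.V) + prW R W hW u)) -
      R.Lo (R.Ex (prE R W hW (v + u) : R.V) * R.Ex (prW R W hW v : R.V)) - prW R W hW u +
      (R.Lo (R.Ex ((prE R W hW v : R.V) + prE R W hW u) * R.Ex (prW R W hW v : R.V)) -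
      R.Lo (R.Ex (prE R W hW v : R.V) * R.Ex (prW R W hW v : R.V)) - prE R W hW u) := by
    rw [← e1, e2]
    have e4 : fEW R W hW v = R.Lo (R.Ex (prE R W hW v : R.V) * R.Ex (prW R W hW v : R.V)) := rfl
    rw [← e4]
    have e5 : ∀ a b c p q u : R.V, p + q = u → a - b - u = a - c - q + (c - b - p) := by
      intro a b c p q u h
      rw [← h]; abel
    exact e5 _ _ _ _ _ _ hs
  rw [e3]
  exact h3

end prod

end Vale.Agent.P188.H131
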