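import Mathlib

/-!
A locally compact second countable group with a countable discrete cocompact subgroup is
unimodular, and automorphisms preserving such a subgroup preserve the Haar measure.
-/

open MeasureTheory MeasureTheory.Measure Topology Set Pointwise

set_option linter.unusedSectionVars false

universe u

namespace Vale.Agent.P188.H131

variable {K : Type u} [Group K] [TopologicalSpace K]

/-- a discrete cocompact subgroup -/
structure Lat (Γ : Subgroup K) : Prop where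
  disc : ∃ U ∈ 𝓝 (1 : K), ∀ γ ∈ Γ, γ ∈ U → γ = 1
  coco : ∃ C : Set K, IsCompact C ∧ ∀ x : K, ∃ γ ∈ Γ, γ * x ∈ C

variable [IsTopologicalGroup K] [SecondCountableTopology K] [MeasurableSpace K] [BorelSpace K]

/-- fundamental set subordinate to a countable family of small open sets -/
theorem exists_fund_aux {Γ : Subgroup K} [Countable Γ] (O : ℕ → Set K) (hO : ∀ n, IsOpen (O n))
    (hU : ∀ n, ∀ a ∈ O n, ∀ γ ∈ Γ, γ * a ∈ O n → γ = 1)
    (hcov : ∀ y, ∃ n, ∃ γ : Γ, (γ : K) * y ∈ O n) :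
    ∃ F : Set K, MeasurableSet F ∧ (F ⊆ ⋃ n, O n) ∧ ∀ x : K, ∃! γ : Γ, (γ : K) * x ∈ F := by
  let W : ℕ → Set K := fun n => {y | ∃ γ : Γ, (γ : K) * y ∈ O n}
  have hW : ∀ n, MeasurableSet (W n) := by
    intro n
    have : W n = ⋃ γ : Γ, {y | (γ : K) * y ∈ O n} := by
      ext y; simp [W]
    rw [this]
    exact MeasurableSet.iUnion fun γ =>
      ((hO n).preimage (continuous_const_mul (γ : K))).measurableSet
  have hWΓ : ∀ n (γ : Γ) y, (γ : K) * y ∈ W n ↔ y ∈ W n := by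
    intro n γ y
    constructor
    · rintro ⟨δ, hδ⟩
      exact ⟨δ * γ, by simpa [mul_assoc] using hδ⟩
    · rintro ⟨δ, hδ⟩
      exact ⟨δ * γ⁻¹, by simpa [mul_assoc] using hδ⟩
  classical
  let F : Set K := ⋃ n, (O n \ ⋃ m ∈ Finset.range n, W m)
  refine ⟨F, MeasurableSet.iUnion fun n => (hO n).measurableSet.diff
    (Finset.measurableSet_biUnion _ fun m _ => hW m),
    iUnion_mono fun n => sdiff_subset, fun y => ?_⟩
  have hex : ∃ n, y ∈ W n := hcov y
  let n := Nat.find hex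
  have hn : y ∈ W n := Nat.find_spec hex
  have hmin : ∀ m < n, y ∉ W m := fun m hm => Nat.find_min hex hm
  have hF : ∀ γ : Γ, (γ : K) * y ∈ F ↔ (γ : K) * y ∈ O n := by
    intro γ
    constructor
    · intro h
      simp only [F, mem_iUnion, mem_sdiff, Finset.mem_range, exists_prop, not_exists,
        not_and] at h
      obtain ⟨k, hk1, hk2⟩ := h
      have hyk : y ∈ W k := ⟨γ, hk1⟩
      have h3 : n ≤ k := Nat.find_min' hex hyk
      rcases h3.eq_or_lt with h4 | h4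
      · rw [h4]; exact hk1
      · exact absurd ((hWΓ n γ y).mpr hn) (hk2 n h4)
    · intro h
      simp only [F, mem_iUnion, mem_sdiff, Finset.mem_range, exists_prop, not_exists,
        not_and]
      exact ⟨n, h, fun m hm hm2 => hmin m hm ((hWΓ m γ y).mp hm2)⟩
  obtain ⟨γ, hγ⟩ := hn
  refine ⟨γ, (hF γ).mpr hγ, fun δ hδ => ?_⟩
  replace hδ := (hF δ).mp hδ
  have h8 : ((δ * γ⁻¹ : Γ) : K) * ((γ : K) * y) = (δ : K) * y := by
    simp only [Subgroup.coe_mul, Subgroup.coe_inv]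
    group
  have h9 := hU n _ hγ _ (δ * γ⁻¹).2 (by rw [h8]; exact hδ)
  have h10 : δ * γ⁻¹ = 1 := Subtype.ext h9
  exact mul_inv_eq_one.mp h10

omit [SecondCountableTopology K] [MeasurableSpace K] [BorelSpace K] in
theorem exists_small {Γ : Subgroup K}
    (hΓ : ∃ U ∈ 𝓝 (1 : K), ∀ γ ∈ Γ, γ ∈ U → γ = 1) :
    ∃ V : Set K, IsOpen V ∧ 1 ∈ V ∧ ∀ x, ∀ a, a * x⁻¹ ∈ V → ∀ γ ∈ Γ, γ * a * x⁻¹ ∈ V → γ = 1 := by
  obtain ⟨U, hU, hUΓ⟩ := hΓ
  have h1 : ∀ᶠ p : K × K in 𝓝 (1 : K) ×ˢ 𝓝 (1 : K), p.1 * p.2⁻¹ ∈ U := by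
    rw [← nhds_prod_eq]
    have hc : Continuous fun p : K × K => p.1 * p.2⁻¹ := continuous_fst.mul continuous_snd.inv
    have := hc.tendsto (1, 1)
    simp only [inv_one, mul_one] at this
    exact this hU
  obtain ⟨V₀, hV₀, hV₀U⟩ : ∃ V ∈ 𝓝 (1 : K), ∀ a ∈ V, ∀ b ∈ V, a * b⁻¹ ∈ U := by
    rw [Filter.eventually_prod_iff] at h1
    obtain ⟨p, hp, q, hq, hpq⟩ := h1
    exact ⟨{a | p a ∧ q a}, hp.and hq, fun a ha b hb => hpq ha.1 hb.2⟩
  obtain ⟨V, hVV₀, hVo, hV1⟩ := mem_nhds_iff.mp hV₀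
  refine ⟨V, hVo, hV1, fun x a ha γ hγ hγa => hUΓ γ hγ ?_⟩
  have := hV₀U _ (hVV₀ hγa) _ (hVV₀ ha)
  have h2 : γ * a * x⁻¹ * (a * x⁻¹)⁻¹ = γ := by group
  rwa [h2] at this

/-- Existence of a measurable set meeting every coset `Γ x` in exactly one point. -/
theorem exists_fund {Γ : Subgroup K} [Countable Γ]
    (hΓ : ∃ U ∈ 𝓝 (1 : K), ∀ γ ∈ Γ, γ ∈ U → γ = 1) :
    ∃ F : Set K, MeasurableSet F ∧ ∀ x : K, ∃! γ : Γ, (γ : K) * x ∈ F := by
  obtain ⟨V, hVo, hV1, hVΓ⟩ := exists_small hΓ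
  let O : K → Set K := fun x => {y | y * x⁻¹ ∈ V}
  have hOo : ∀ x, IsOpen (O x) := fun x => hVo.preimage (continuous_mul_const x⁻¹)
  have hOx : ∀ x, O x ∈ 𝓝 x := fun x => (hOo x).mem_nhds (by
    show x * x⁻¹ ∈ V
    rw [mul_inv_cancel]; exact hV1)
  obtain ⟨s, hs, hsU⟩ := TopologicalSpace.countable_cover_nhds hOx
  have hne : s.Nonempty := by
    by_contra h
    rw [not_nonempty_iff_eq_empty] at h
    rw [h] at hsU
    simp only [mem_empty_iff_false, iUnion_of_empty, iUnion_empty] at hsU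
    exact (Set.empty_ne_univ hsU)
  obtain ⟨x, hx⟩ := hs.exists_eq_range hne
  obtain ⟨F, hF, -, hF2⟩ := exists_fund_aux (Γ := Γ) (fun n => O (x n)) (fun n => hOo _)
    (fun n a ha γ hγ hγa => hVΓ (x n) a ha γ hγ hγa) (fun y => by
      have : y ∈ ⋃ z ∈ s, O z := by rw [hsU]; exact mem_univ _
      simp only [mem_iUnion, exists_prop] at this
      obtain ⟨z, hz, hyz⟩ := this
      rw [hx] at hz
      obtain ⟨n, rfl⟩ := hz
      exact ⟨n, 1, by simpa using hyz⟩)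
  exact ⟨F, hF, hF2⟩

/-- Existence of a relatively compact measurable set meeting every coset `Γ x` in exactly one
point. -/
theorem exists_fund_bdd [LocallyCompactSpace K] {Γ : Subgroup K} [Countable Γ] (hΓ : Lat Γ) :
    ∃ F : Set K, MeasurableSet F ∧ (∃ C, IsCompact C ∧ F ⊆ C) ∧
      ∀ x : K, ∃! γ : Γ, (γ : K) * x ∈ F := by
  obtain ⟨V, hVo, hV1, hVΓ⟩ := exists_small hΓ.disc
  obtain ⟨B, hB, hB1⟩ := exists_compact_mem_nhds (1 : K)
  obtain ⟨C, hC, hCΓ⟩ := hΓ.coco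
  let V' : Set K := V ∩ interior B
  have hV'o : IsOpen V' := hVo.inter isOpen_interior
  let O : K → Set K := fun x => {y | y * x⁻¹ ∈ V'}
  have hOo : ∀ x, IsOpen (O x) := fun x => hV'o.preimage (continuous_mul_const x⁻¹)
  have hOx : ∀ x, O x ∈ 𝓝 x := fun x => (hOo x).mem_nhds (by
    show x * x⁻¹ ∈ V'
    rw [mul_inv_cancel]
    exact ⟨hV1, mem_interior_iff_mem_nhds.mpr hB1⟩)
  obtain ⟨t, -, ht⟩ := hC.elim_nhds_subcover O fun x _ => hOx x
  have hne : (t : Set K).Nonempty := by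
    obtain ⟨γ, hγ, hγC⟩ := hCΓ 1
    have := ht hγC
    simp only [mem_iUnion, exists_prop] at this
    obtain ⟨z, hz, -⟩ := this
    exact ⟨z, hz⟩
  obtain ⟨x, hx⟩ := t.countable_toSet.exists_eq_range hne
  obtain ⟨F, hF, hFO, hF2⟩ := exists_fund_aux (Γ := Γ) (fun n => O (x n)) (fun n => hOo _)
    (fun n a ha γ hγ hγa => hVΓ (x n) a ha.1 γ hγ hγa.1) (fun y => by
      obtain ⟨γ, hγ, hγC⟩ := hCΓ y
      have := ht hγC
      simp only [mem_iUnion, exists_prop] at this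
      obtain ⟨z, hz, hyz⟩ := this
      have hz' : z ∈ (t : Set K) := hz
      rw [hx] at hz'
      obtain ⟨n, rfl⟩ := hz'
      exact ⟨n, ⟨γ, hγ⟩, hyz⟩)
  refine ⟨F, hF, ⟨⋃ z ∈ t, (fun y => y * z) '' B, ?_, ?_⟩, hF2⟩
  · exact t.isCompact_biUnion fun z _ => hB.image (continuous_mul_const z)
  · intro y hy
    have := hFO hy
    rw [mem_iUnion] at this
    obtain ⟨n, hn⟩ := this
    have hxn : x n ∈ (t : Set K) := by rw [hx]; exact ⟨n, rfl⟩
    rw [mem_iUnion₂]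
    refine ⟨x n, hxn, y * (x n)⁻¹, interior_subset hn.2, by simp⟩

theorem isFund {Γ : Subgroup K} {F : Set K} (hF : MeasurableSet F)
    (h : ∀ x : K, ∃! γ : Γ, (γ : K) * x ∈ F) (μ : Measure K) : IsFundamentalDomain Γ F μ :=
  IsFundamentalDomain.mk' hF.nullMeasurableSet h

theorem smulInv {Γ : Subgroup K} (μ : Measure K) [μ.IsMulLeftInvariant] :
    SMulInvariantMeasure Γ K μ :=
  ⟨fun γ s hs => by
    have : (fun x : K => γ • x) ⁻¹' s = (fun x => (γ : K) * x) ⁻¹' s := rfl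
    rw [this, ← map_apply (measurable_const_mul _) hs, map_mul_left_eq_self]⟩

theorem fund_finite {Γ : Subgroup K} [Countable Γ] {F : Set K} (hF : MeasurableSet F)
    (h : ∀ x : K, ∃! γ : Γ, (γ : K) * x ∈ F) (hc : ∃ C : Set K, IsCompact C ∧
      ∀ x : K, ∃ γ ∈ Γ, γ * x ∈ C) (μ : Measure K) [μ.IsMulLeftInvariant]
    [IsFiniteMeasureOnCompacts μ] : μ F < ⊤ := by
  obtain ⟨C, hC, hCΓ⟩ := hc
  have hfd := isFund hF h μ
  have := smulInv (Γ := Γ) μ
  have h1 := hfd.measure_eq_tsum C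
  have h2 : F ⊆ ⋃ γ : Γ, (γ • C ∩ F) := by
    intro y hy
    obtain ⟨γ, hγ, hγC⟩ := hCΓ y
    refine mem_iUnion.mpr ⟨(⟨γ, hγ⟩ : Γ)⁻¹, ?_, hy⟩
    rw [mem_inv_smul_set_iff]
    exact hγC
  calc μ F ≤ μ (⋃ γ : Γ, (γ • C ∩ F)) := measure_mono h2
    _ ≤ ∑' γ : Γ, μ (γ • C ∩ F) := measure_iUnion_le _
    _ = μ C := h1.symm
    _ < ⊤ := hC.measure_lt_top

variable [LocallyCompactSpace K]

/-- unimodularity -/
theorem right_inv {Γ : Subgroup K} [Countable Γ] (hΓ : Lat Γ) (μ : Measure K) [IsHaarMeasure μ] :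
    IsMulRightInvariant μ := by
  obtain ⟨F, hF, hFx⟩ := exists_fund hΓ.disc
  have hfin := fund_finite hF hFx hΓ.coco μ
  have := smulInv (Γ := Γ) μ
  have hpos : μ F ≠ 0 := (isFund hF hFx μ).measure_ne_zero (NeZero.ne μ)
  refine ⟨fun g => ?_⟩
  have h1 : map (· * g) μ = haarScalarFactor (map (· * g) μ) μ • μ :=
    isMulLeftInvariant_eq_smul _ _
  have hF' : MeasurableSet ((· * g) ⁻¹' F) := measurable_mul_const g hF
  have hFx' : ∀ x : K, ∃! γ : Γ, (γ : K) * x ∈ ((· * g) ⁻¹' F) := by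
    intro x
    obtain ⟨γ, hγ, hu⟩ := hFx (x * g)
    refine ⟨γ, by simpa [mul_assoc] using hγ, fun δ hδ => hu δ (by simpa [mul_assoc] using hδ)⟩
  have h2 : map (· * g) μ F = μ F := by
    rw [map_apply (measurable_mul_const g) hF]
    exact (isFund hF' hFx' μ).measure_eq (isFund hF hFx μ)
  rw [h1] at h2 ⊢
  have h3 : haarScalarFactor (map (· * g) μ) μ = 1 := by
    rw [Measure.smul_apply, ENNReal.smul_def, smul_eq_mul] at h2
    have h4 := (ENNReal.mul_eq_right hpos hfin.ne).mp h2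
    exact_mod_cast h4
  rw [h3, one_smul]

/-- automorphisms preserving the lattice preserve the measure -/
theorem measurePreserving_aut {Γ : Subgroup K} [Countable Γ] (hΓ : Lat Γ) (μ : Measure K)
    [IsHaarMeasure μ] (α : K ≃* K) (hα : Continuous α) (hα' : Continuous α.symm)
    (hΓα : ∀ x, α x ∈ Γ ↔ x ∈ Γ) : MeasurePreserving α μ μ := by
  obtain ⟨F, hF, hFx⟩ := exists_fund hΓ.disc
  have hfin := fund_finite hF hFx hΓ.coco μ
  have := smulInv (Γ := Γ) μ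
  have hpos : μ F ≠ 0 := (isFund hF hFx μ).measure_ne_zero (NeZero.ne μ)
  have hH : IsHaarMeasure (map α μ) := α.isHaarMeasure_map μ hα hα'
  have h1 : map α μ = haarScalarFactor (map α μ) μ • μ := isMulLeftInvariant_eq_smul _ _
  have hF' : MeasurableSet (α ⁻¹' F) := hα.measurable hF
  have hFx' : ∀ x : K, ∃! γ : Γ, (γ : K) * x ∈ (α ⁻¹' F) := by
    intro x
    obtain ⟨γ, hγ, hu⟩ := hFx (α x)
    have hm : α.symm γ ∈ Γ := by
      rw [← hΓα, MulEquiv.apply_symm_apply]; exact γ.2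
    refine ⟨⟨α.symm γ, hm⟩, by simpa [map_mul] using hγ, fun δ hδ => ?_⟩
    have h3 := hu ⟨α δ, (hΓα δ).mpr δ.2⟩ (by simpa [map_mul] using hδ)
    have h4 : α δ = (γ : K) := congrArg Subtype.val h3
    apply Subtype.ext
    show (δ : K) = α.symm (γ : K)
    rw [← h4]
    simp
  have h2 : map α μ F = μ F := by
    rw [map_apply hα.measurable hF]
    exact (isFund hF' hFx' μ).measure_eq (isFund hF hFx μ)
  refine ⟨hα.measurable, ?_⟩
  rw [h1] at h2 ⊢
  have h3 : haarScalarFactor (map α μ) μ = 1 := by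
    rw [Measure.smul_apply, ENNReal.smul_def, smul_eq_mul] at h2
    have h4 := (ENNReal.mul_eq_right hpos hfin.ne).mp h2
    exact_mod_cast h4
  rw [h3, one_smul]

end Vale.Agent.P188.H131
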