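import Vale.Agent.P188.H131.ExtHom
import Vale.Agent.P188.H131.ModelC
import Vale.Agent.P188.H530.CrossZ

/-!
Crossed homomorphisms of the real group `S` from generator weights of `Γ`.
-/

open MeasureTheory Topology Set Filter Vale.Agent.P188.H796 Vale.Agent.P188.H615
open Vale.Agent.P188.H530 (hgt Crossed)
open Vale.Agent.P188.H754 (GenWeight)

set_option linter.unusedSectionVars false

universe u v

namespace Vale.Agent.P188.H131

variable {Γ : Type u} [Group Γ] {k : ℕ} {η : Γ →* Multiplicative (Fin k → ℤ)} {d n : ℕ}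
  {D : MB η.ker d n}

theorem w_hom (w : GenWeight η.ker) (x y : η.ker) :
    w.φ ((x * y : η.ker) : Γ) = w.φ x + w.φ y := w.φ_mul _ x.2 _ y.2

variable (D) in
/-- the extension of the weight functional to the real group -/
noncomputable def wR (w : GenWeight η.ker) (s : D.R.NR) : ℂ := PhiR D.R (fun x : η.ker => w.φ x) s

theorem wR_ι (w : GenWeight η.ker) (y : η.ker) : wR D w (D.R.ι y) = w.φ y :=
  PhiR_ι D.R (w_hom w) y

theorem wR_mul (w : GenWeight η.ker) (s t : D.R.NR) : wR D w (s * t) = wR D w s + wR D w t :=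
  PhiR_mul D.R (w_hom w) s t

theorem wR_α (w : GenWeight η.ker) (g : Γ) (s : D.R.NR) :
    wR D w (D.P.α g s) = w.ρ g * wR D w s := by
  refine D.R.dens (f := fun s => wR D w (D.P.α g s)) (g := fun s => w.ρ g * wR D w s) ?_ ?_ ?_ s
  · intro γ hγ
    let γ' : ℝ → D.R.NR := fun t => γ t
    refine PC_PhiR D.R _ (γ := fun t => D.P.α g (γ' t)) fun i => ?_
    refine PC_coord D.R (γ := fun t => D.P.α g (γ' t)) ?_ i
    refine ((D.R.PC_E hγ).map (D.Th (MulAut.conjNormal g)).toLinearMap).congr fun t => ?_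
    exact D.toA_actM _ (γ' t)
  · intro γ hγ
    refine ((PC_PhiR D.R (fun x : η.ker => w.φ x) hγ).map
      (LinearMap.mulLeft ℝ (w.ρ g))).congr fun t => ?_
    rfl
  · intro y
    have h1 : D.P.α g (D.R.ι y) = D.R.ι ⟨g * y * g⁻¹, (inferInstance : η.ker.Normal).conj_mem y y.2 g⟩ :=
      D.αΓ_ι g y
    rw [h1, wR_ι, wR_ι]
    exact w.φ_conj g y y.2

/-- the character on `S` -/
noncomputable def rS (D : MB η.ker d n) (w : GenWeight η.ker) : D.S →* ℂ :=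
  (Units.coeHom ℂ).comp (D.P.lift w.ρ.toHomUnits (fun x => Units.ext (by
    rw [MonoidHom.coe_toHomUnits, w.ρ_of_mem x.2]; rfl)))

theorem rS_inΓ (w : GenWeight η.ker) (g : Γ) : rS D w (D.inΓ g) = w.ρ g := by
  unfold rS
  rw [MonoidHom.comp_apply, D.P.lift_inG]
  rfl

theorem rS_inN (w : GenWeight η.ker) (x : D.R.NR) : rS D w (D.inN x) = 1 := by
  unfold rS
  rw [MonoidHom.comp_apply, D.P.lift_inK]
  rfl

theorem rS_gk (w : GenWeight η.ker) (g : Γ) (x : D.R.NR) : rS D w (gk D.P g x) = w.ρ g := by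
  have : gk D.P g x = D.inΓ g * D.inN x := rfl
  rw [this, map_mul, rS_inN, rS_inΓ, mul_one]

open Classical in
/-- the functional on the kernel -/
noncomputable def fS (D : MB η.ker d n) (w : GenWeight η.ker) (s : D.S) : ℂ :=
  if h : ∃ x : D.R.NR, D.inN x = s then wR D w h.choose else 0

theorem fS_inN (w : GenWeight η.ker) (x : D.R.NR) : fS D w (D.inN x) = wR D w x := by
  have h : ∃ y : D.R.NR, D.inN y = D.inN x := ⟨x, rfl⟩
  unfold fS
  rw [dif_pos h, D.P.inK_injective h.choose_spec]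

theorem mem_ker_iff (s : D.S) : s ∈ (D.θ η).ker ↔ ∃ x : D.R.NR, D.inN x = s := by
  rw [D.θ_ker]; rfl

/-- **generator weights of `S`** -/
noncomputable def wS (D : MB η.ker d n) (w : GenWeight η.ker) : GenWeight (D.θ η).ker where
  ρ := rS D w
  φ := fS D w
  φ_mul := by
    intro s hs t ht
    obtain ⟨x, rfl⟩ := (mem_ker_iff s).1 hs
    obtain ⟨y, rfl⟩ := (mem_ker_iff t).1 ht
    rw [← map_mul, fS_inN, fS_inN, fS_inN, wR_mul]
  φ_conj := by
    intro s t ht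
    obtain ⟨y, rfl⟩ := (mem_ker_iff t).1 ht
    obtain ⟨g, x, rfl⟩ := exists_gk D.P s
    have h1 : gk D.P g x * D.inN y * (gk D.P g x)⁻¹ = D.inN (D.P.α g (x * y * x⁻¹)) := by
      have h2 : gk D.P g x = D.inΓ g * D.inN x := rfl
      have h3 := D.P.inG_conj g (x * y * x⁻¹)
      have h4 : D.inN (D.P.α g (x * y * x⁻¹)) = D.inΓ g * D.inN (x * y * x⁻¹) * (D.inΓ g)⁻¹ :=
        h3.symm
      rw [h4, h2, map_mul, map_mul, map_inv]
      group
    rw [h1, fS_inN, fS_inN, wR_α, wR_mul, wR_mul, rS_gk]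
    have h5 : wR D w x⁻¹ = - wR D w x := PhiR_inv D.R (w_hom w) x
    rw [h5]
    ring
  φ_ne := by
    obtain ⟨y, hy, h⟩ := w.φ_ne
    refine ⟨D.inN (D.R.ι ⟨y, hy⟩), (mem_ker_iff _).2 ⟨_, rfl⟩, ?_⟩
    rw [fS_inN, wR_ι]
    exact h

theorem exists_crossedS (w : GenWeight η.ker) (hη : Function.Surjective η)
    {b : (Fin k → ℝ) →L[ℝ] ℝ} (hb : ∀ g, b (hgt η g) = Real.log ‖w.ρ g‖) (hb0 : b ≠ 0) :
    ∃ (c : Crossed (hgt (D.θ η)) b) (L : D.R.V →ₗ[ℝ] ℂ), (∀ v, c.D (D.ex v) = L v) ∧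
      (∀ x y : D.R.V, L ⁅x, y⁆ = 0) ∧ (∃ v, L v ≠ 0) ∧ (∀ g, c.ρ (D.inΓ g) = w.ρ g) ∧
      (∀ x : η.ker, c.D (D.inΓ x) = w.φ x) := by
  have hb' : ∀ s, b (hgt (D.θ η) s) = Real.log ‖(wS D w).ρ s‖ := by
    intro s
    obtain ⟨g, x, rfl⟩ := exists_gk D.P s
    have h1 : hgt (D.θ η) (gk D.P g x) = hgt η g := by
      unfold hgt
      rw [θ_gk]
    have h2 : (wS D w).ρ (gk D.P g x) = w.ρ g := rS_gk w g x
    rw [h1, h2, hb]
  have hη' : Function.Surjective (D.θ η) := by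
    intro z
    obtain ⟨g, hg⟩ := hη z
    exact ⟨D.inΓ g, by rw [D.θ_inΓ, hg]⟩
  obtain ⟨c, hc1, hc2⟩ := Vale.Agent.P188.H530.exists_crossed (D.θ η) (wS D w) hb' hb0 hη'
  obtain ⟨L, hL⟩ := exists_lin D.R (φ := fun x : η.ker => w.φ x) (w_hom w)
  have h1 : ∀ x : D.R.NR, c.D (D.inN x) = wR D w x := by
    intro x
    rw [hc2 _ ((mem_ker_iff _).2 ⟨x, rfl⟩)]
    exact fS_inN w x
  refine ⟨c, L, fun v => ?_, lin_lie D.R (w_hom w) hL, ?_, fun g => ?_, fun x => ?_⟩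
  · rw [hL]
    exact h1 _
  · obtain ⟨y, hy, h⟩ := w.φ_ne
    refine ⟨D.R.Lo (D.R.ι ⟨y, hy⟩), ?_⟩
    rw [hL, D.R.Ex_Lo, PhiR_ι D.R (w_hom w)]
    exact h
  · rw [hc1]
    exact rS_inΓ w g
  · have h2 : D.inΓ (x : Γ) = D.inN (D.R.ι x) := D.P.inG_coe x
    rw [h2, h1, wR_ι]

theorem meas_crossed {b : (Fin k → ℝ) →L[ℝ] ℝ} (c : Crossed (hgt (D.θ η)) b)
    {L : D.R.V →ₗ[ℝ] ℂ} (hL : ∀ v, c.D (D.ex v) = L v) : Measurable c.D ∧ Measurable c.ρ := by
  have hρ : ∀ g x, c.ρ (gk D.P g x) = c.ρ (D.inΓ g) := by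
    intro g x
    have h1 : gk D.P g x = D.inΓ g * D.inN x := rfl
    have h2 : c.ρ (D.inN x) = 1 := by
      refine c.ρ_ker _ ?_
      rw [H530.hgt_eq_zero_iff]
      exact (mem_ker_iff _).2 ⟨x, rfl⟩
    rw [h1, c.ρ_mul, h2, mul_one]
  constructor
  · rw [measurable_S]
    intro g
    have h1 : (fun x : D.R.NR => c.D (gk D.P g x)) =
        fun x : D.R.NR => c.D (D.inΓ g) + c.ρ (D.inΓ g) * L (D.R.Lo x) := by
      funext x
      have h1 : gk D.P g x = D.inΓ g * D.inN x := rfl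
      have h2 : D.inN x = D.ex (D.R.Lo x) := by rw [MB.ex, D.R.Ex_Lo]
      rw [h1, c.D_mul, h2, hL]
    rw [h1]
    have h3 : Continuous fun x : D.R.NR => L (D.R.Lo x) :=
      (LinearMap.continuous_of_finiteDimensional L).comp D.R.continuous_Lo
    exact (continuous_const.add (continuous_const.mul h3)).measurable
  · rw [measurable_S]
    intro g
    have h1 : (fun x : D.R.NR => c.ρ (gk D.P g x)) = fun x : D.R.NR => c.ρ (D.inΓ g) := by
      funext x; exact hρ g x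
    rw [h1]
    exact measurable_const

/-- exponential bound -/
theorem crossed_le {b : (Fin k → ℝ) →L[ℝ] ℝ} (c : Crossed (hgt (D.θ η)) b)
    {L : D.R.V →ₗ[ℝ] ℂ} (hL : ∀ v, c.D (D.ex v) = L v) {F : Set Γ} (hF : F.Finite)
    (hgen : Subgroup.closure F = ⊤) :
    ∃ C : ℝ, 0 ≤ C ∧ ∀ x, ‖c.D x‖ ≤ Real.exp (C * (wl (D.U F) x + 1)) := by
  have hF' : (F ∪ F⁻¹).Finite := hF.union hF.inv
  obtain ⟨D1, hD1⟩ := (hF'.image fun f => ‖c.D (D.inΓ f)‖).bddAbove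
  obtain ⟨E1, hE1⟩ := (hF'.image fun f => ‖c.ρ (D.inΓ f)‖).bddAbove
  set Lc : D.R.V →L[ℝ] ℂ := LinearMap.toContinuousLinearMap L with hLc
  set Λ : ℝ := 1 + (|D1| + ‖Lc‖) + (1 + |E1|) with hΛ
  have hΛ1 : 1 ≤ Λ := by
    have := abs_nonneg D1
    have := abs_nonneg E1
    have := norm_nonneg Lc
    linarith
  have hz : ∀ z : D.S, (z ∈ D.U F ∨ z⁻¹ ∈ D.U F) →
      ‖c.D z‖ ≤ |D1| + ‖Lc‖ ∧ ‖c.ρ z‖ ≤ 1 + |E1| := by
    intro z hz
    rcases D.mem_U hz with ⟨f, hf, rfl⟩ | ⟨v, hv, rfl⟩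
    · have hf' : f ∈ F ∪ F⁻¹ := by
        rcases hf with h | h
        · exact Or.inl h
        · exact Or.inr h
      have h1 : ‖c.D (D.inΓ f)‖ ≤ D1 := hD1 ⟨f, hf', rfl⟩
      have h2 : ‖c.ρ (D.inΓ f)‖ ≤ E1 := hE1 ⟨f, hf', rfl⟩
      have := le_abs_self D1
      have := le_abs_self E1
      have := norm_nonneg Lc
      exact ⟨by linarith, by linarith⟩
    · have h0 : D.inN (D.R.Ex v) = D.ex v := rfl
      have h1 : ‖c.D (D.ex v)‖ ≤ ‖Lc‖ := by
        rw [hL]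
        have h3 : ‖v‖ ≤ 1 := hv
        calc ‖Lc v‖ ≤ ‖Lc‖ * ‖v‖ := Lc.le_opNorm v
          _ ≤ ‖Lc‖ * 1 := by gcongr
          _ = ‖Lc‖ := mul_one _
      have h2 : c.ρ (D.ex v) = 1 := by
        refine c.ρ_ker _ ?_
        rw [H530.hgt_eq_zero_iff]
        exact (mem_ker_iff _).2 ⟨_, rfl⟩
      rw [h0, h2, norm_one]
      have := abs_nonneg D1
      have := abs_nonneg E1
      exact ⟨by linarith, by linarith⟩
  have key : ∀ l : List D.S, (∀ a ∈ l, a ∈ D.U F ∨ a⁻¹ ∈ D.U F) →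
      ‖c.D l.prod‖ ≤ Λ ^ l.length - 1 := by
    intro l
    induction l with
    | nil => intro _; rw [List.prod_nil, c.D_one]; simp
    | cons a l ih =>
      intro h
      have h1 := ih fun x hx => h x (List.mem_cons_of_mem _ hx)
      obtain ⟨h2, h3⟩ := hz a (h a List.mem_cons_self)
      rw [List.prod_cons, c.D_mul, List.length_cons, pow_succ]
      refine (norm_add_le _ _).trans ?_
      rw [norm_mul]
      have hp : 1 ≤ Λ ^ l.length := one_le_pow₀ hΛ1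
      have h4 : ‖c.ρ a‖ * ‖c.D l.prod‖ ≤ (1 + |E1|) * (Λ ^ l.length - 1) := by
        refine mul_le_mul h3 h1 (norm_nonneg _) (by positivity)
      have h5 : 0 ≤ |E1| := abs_nonneg _
      have h6 : 0 ≤ |D1| + ‖Lc‖ := by positivity
      nlinarith [mul_nonneg h6 (sub_nonneg.2 hp)]
  refine ⟨Real.log Λ, Real.log_nonneg hΛ1, fun x => ?_⟩
  obtain ⟨l, h1, h2, h3⟩ := wl_list (D.closure_U hgen) x
  have h4 := key l h2
  rw [h3, h1] at h4
  have h5 : Λ ^ (wl (D.U F) x) ≤ Real.exp (Real.log Λ * (wl (D.U F) x + 1)) := by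
    have e1 : Λ ^ (wl (D.U F) x) = Real.exp (Real.log Λ * wl (D.U F) x) := by
      rw [mul_comm, Real.exp_nat_mul, Real.exp_log (by linarith)]
    rw [e1]
    refine Real.exp_le_exp.2 (mul_le_mul_of_nonneg_left (by linarith) (Real.log_nonneg hΛ1))
  linarith

end Vale.Agent.P188.H131
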