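import Mathlib

/-!
Determinants: a map of a finite dimensional space which, for every `ε > 0`, multiplies some norm
by at most `exp ε`, has determinant at most one in absolute value.
-/

open MeasureTheory MeasureTheory.Measure Topology Set Filter
open scoped ENNReal Pointwise

universe u v

namespace Vale.Agent.P188.H131

section norm

variable {W : Type u} [NormedAddCommGroup W] [NormedSpace ℝ W] [FiniteDimensional ℝ W]

theorem seminorm_continuous (q : Seminorm ℝ W) : Continuous q :=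
  (q.convexOn.locallyLipschitz).continuous

theorem seminorm_bdd (q : Seminorm ℝ W) (hq : ∀ x, q x = 0 → x = 0) :
    ∃ c : ℝ, 0 < c ∧ ∀ x, c * ‖x‖ ≤ q x := by
  obtain ⟨c, hc, h⟩ := (isCompact_sphere (0 : W) 1).exists_forall_le' (a := (0 : ℝ))
    (seminorm_continuous q).continuousOn (fun x hx => by
      have h0 : x ≠ 0 := by
        rintro rfl
        simp at hx
      exact lt_of_le_of_ne (apply_nonneg q x) fun h => h0 (hq x h.symm))
  refine ⟨c, hc, fun x => ?_⟩
  by_cases hx : x = 0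
  · simp [hx]
  · have h1 : 0 < ‖x‖ := norm_pos_iff.2 hx
    have h2 := h (‖x‖⁻¹ • x) (by
      rw [mem_sphere_zero_iff_norm, norm_smul, norm_inv, norm_norm, inv_mul_cancel₀ h1.ne'])
    rw [map_smul_eq_mul, norm_inv, norm_norm] at h2
    calc c * ‖x‖ ≤ (‖x‖⁻¹ * q x) * ‖x‖ := by gcongr
      _ = q x := by field_simp

theorem abs_det_le_exp (T : W →ₗ[ℝ] W) (q : Seminorm ℝ W) (hq : ∀ x, q x = 0 → x = 0) {ε : ℝ}
    (hT : ∀ x, q (T x) ≤ Real.exp ε * q x) :
    |LinearMap.det T| ≤ Real.exp ε ^ Module.finrank ℝ W := by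
  borelize W
  let μ : Measure W := MeasureTheory.Measure.addHaar
  let B : Set W := {x | q x < 1}
  have hBo : IsOpen B := isOpen_lt (seminorm_continuous q) continuous_const
  have hB0 : μ B ≠ 0 := hBo.measure_ne_zero μ ⟨0, by simp [B]⟩
  obtain ⟨c, hc, hcq⟩ := seminorm_bdd q hq
  have hBf : μ B ≠ ⊤ := by
    have h1 : B ⊆ Metric.closedBall 0 c⁻¹ := by
      intro x hx
      rw [mem_closedBall_zero_iff]
      have h2 := (hcq x).trans_lt hx
      have h3 : ‖x‖ < c⁻¹ := by
        rw [← one_div, lt_div_iff₀ hc, mul_comm]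
        exact h2
      exact h3.le
    exact ((measure_mono h1).trans_lt (isCompact_closedBall (0 : W) c⁻¹).measure_lt_top).ne
  have h2 : T '' B ⊆ Real.exp ε • B := by
    rintro _ ⟨x, hx, rfl⟩
    rw [mem_smul_set_iff_inv_smul_mem₀ (Real.exp_pos ε).ne']
    show q ((Real.exp ε)⁻¹ • T x) < 1
    rw [map_smul_eq_mul, norm_inv, Real.norm_eq_abs, abs_of_pos (Real.exp_pos ε),
      inv_mul_lt_iff₀ (Real.exp_pos ε), mul_one]
    refine (hT x).trans_lt ?_
    have : q x < 1 := hx
    nlinarith [Real.exp_pos ε]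
  have h3 := measure_mono (μ := μ) h2
  rw [addHaar_image_linearMap, addHaar_smul_of_nonneg _ (Real.exp_pos ε).le] at h3
  have h4 := (ENNReal.mul_le_mul_iff_left hB0 hBf).1 h3
  exact (ENNReal.ofReal_le_ofReal_iff (by positivity)).1 h4

theorem abs_det_le_one (T : W →ₗ[ℝ] W)
    (h : ∀ ε : ℝ, 0 < ε → ∃ q : Seminorm ℝ W, (∀ x, q x = 0 → x = 0) ∧
      ∀ x, q (T x) ≤ Real.exp ε * q x) : |LinearMap.det T| ≤ 1 := by
  have h1 : Tendsto (fun ε : ℝ => Real.exp ε ^ Module.finrank ℝ W) (𝓝[>] 0) (𝓝 1) := by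
    have : Tendsto (fun ε : ℝ => Real.exp ε ^ Module.finrank ℝ W) (𝓝 0) (𝓝 (Real.exp 0 ^ Module.finrank ℝ W)) :=
      (Real.continuous_exp.pow _).tendsto 0
    rw [Real.exp_zero, one_pow] at this
    exact this.mono_left nhdsWithin_le_nhds
  refine ge_of_tendsto h1 ?_
  filter_upwards [self_mem_nhdsWithin] with ε hε
  obtain ⟨q, hq, hT⟩ := h ε hε
  exact abs_det_le_exp T q hq hT

end norm

section alg

variable {V : Type u} [NormedAddCommGroup V] [NormedSpace ℝ V] [FiniteDimensional ℝ V]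

/-- the determinant on the quotient by the kernel of the seminorms -/
theorem abs_det_mapQ_le (e : Submodule ℝ V) (T : V →ₗ[ℝ] V) (he : e ≤ e.comap T)
    (h : ∀ ε : ℝ, 0 < ε → ∃ q : Seminorm ℝ V, (∀ x, q x = 0 ↔ x ∈ e) ∧
      ∀ x, q (T x) ≤ Real.exp ε * q x) : |LinearMap.det (e.mapQ e T he)| ≤ 1 := by
  obtain ⟨W, hW⟩ := e.exists_isCompl
  let φ := Submodule.quotientEquivOfIsCompl e W hW
  let TW : W →ₗ[ℝ] W := φ ∘ₗ (e.mapQ e T he) ∘ₗ φ.symm
  have h1 : LinearMap.det TW = LinearMap.det (e.mapQ e T he) := LinearMap.det_conj _ φ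
  rw [← h1]
  refine abs_det_le_one TW fun ε hε => ?_
  obtain ⟨q, hq, hT⟩ := h ε hε
  refine ⟨q.comp W.subtype, fun x hx => ?_, fun x => ?_⟩
  · have h2 : (x : V) ∈ e := (hq x).1 hx
    have h3 := hW.disjoint.le_bot ⟨h2, x.2⟩
    exact Subtype.ext ((Submodule.mem_bot ℝ).1 h3)
  · have h2 : TW x = W.projectionOnto e hW.symm (T x) := by
      show φ (e.mapQ e T he (φ.symm x)) = _
      rw [Submodule.quotientEquivOfIsCompl_symm_apply, Submodule.mapQ_apply]
      exact Submodule.quotientEquivOfIsCompl_apply_mk _ _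
    have h3 : (TW x : V) - T x ∈ e := by
      have h5 := Submodule.projection_eq_self_sub_projection hW (T x)
      rw [h2, Submodule.coe_projectionOnto_apply, h5, sub_sub_cancel_left]
      refine e.neg_mem ?_
      rw [← Submodule.coe_projectionOnto_apply]
      exact (e.projectionOnto W hW (T x)).2
    show q (TW x : V) ≤ Real.exp ε * q x
    refine le_trans ?_ (hT x)
    have h4 : (TW x : V) = ((TW x : V) - T x) + T x := by abel
    rw [h4]
    refine (map_add_le_add q _ _).trans ?_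
    rw [(hq _).2 h3, zero_add]

/-- **the determinant on `e`** -/
theorem abs_det_restrict (e : Submodule ℝ V) (T T' : V →ₗ[ℝ] V) (hTT : T ∘ₗ T' = LinearMap.id)
    (hdet : |LinearMap.det T| = 1) (he : e ≤ e.comap T) (he' : e ≤ e.comap T')
    (h : ∀ ε : ℝ, 0 < ε → ∃ q : Seminorm ℝ V, (∀ x, q x = 0 ↔ x ∈ e) ∧
      ∀ x, q (T x) ≤ Real.exp ε * q x)
    (h' : ∀ ε : ℝ, 0 < ε → ∃ q : Seminorm ℝ V, (∀ x, q x = 0 ↔ x ∈ e) ∧
      ∀ x, q (T' x) ≤ Real.exp ε * q x) : |LinearMap.det (T.restrict he)| = 1 := by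
  have e1 := abs_det_mapQ_le e T he h
  have e2 := abs_det_mapQ_le e T' he' h'
  have e3 : (e.mapQ e T he) ∘ₗ (e.mapQ e T' he') = LinearMap.id := by
    ext x
    show e.mapQ e T he (e.mapQ e T' he' (e.mkQ x)) = _
    rw [Submodule.mkQ_apply, Submodule.mapQ_apply, Submodule.mapQ_apply]
    have := LinearMap.congr_fun hTT x
    simp only [LinearMap.comp_apply, LinearMap.id_apply] at this
    rw [this]; rfl
  have e4 : |LinearMap.det (e.mapQ e T he)| * |LinearMap.det (e.mapQ e T' he')| = 1 := by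
    rw [← abs_mul, ← LinearMap.det_comp, e3, LinearMap.det_id, abs_one]
  have e5 : |LinearMap.det (e.mapQ e T he)| = 1 := by
    refine le_antisymm e1 ?_
    calc (1 : ℝ) = |LinearMap.det (e.mapQ e T he)| * |LinearMap.det (e.mapQ e T' he')| := e4.symm
      _ ≤ |LinearMap.det (e.mapQ e T he)| * 1 := by gcongr
      _ = _ := mul_one _
  rw [LinearMap.det_eq_det_mul_det e T he, abs_mul, e5, mul_one] at hdet
  exact hdet

end alg

end Vale.Agent.P188.H131
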