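import Vale.Agent.P188.H131.HaarE
import Vale.Agent.P188.H796.Lk

/-!
Homomorphisms `N → ℂ` extend to the real group, and are linear functionals of the logarithm.
-/

open Topology Set Filter Vale.Agent.P188.H796 Vale.Agent.P188.H615

set_option linter.unusedSectionVars false

universe u v

namespace Vale.Agent.P188.H131

variable {N : Type u} [Group N] {d n : ℕ} {D : MB N d n} {A : Type v} [NormedRing A]
  [NormedAlgebra ℝ A] [FiniteDimensional ℝ A] (R : RD D A)

/-- the extension to the real group -/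
noncomputable def PhiR (φ : N → ℂ) (s : R.NR) : ℂ := ∑ i, (s i : ℝ) • φ (D.b i)

variable {φ : N → ℂ} (hφ : ∀ x y, φ (x * y) = φ x + φ y)

theorem PC_PhiR (φ : N → ℂ) {γ : ℝ → Fin d → ℝ} (hγ : ∀ i, PC fun t => γ t i) :
    PC fun t => PhiR R φ (γ t) :=
  PC.sum _ fun i _ => (hγ i).smul (PC.const _)

theorem PC_coord {γ : ℝ → R.NR} (hγ : PC fun t => R.toA (γ t)) (i : Fin d) :
    PC fun t => (γ t i : ℝ) := by
  refine (hγ.map (R.ℓ i)).congr fun t => ?_
  exact (R.ℓ_toA (γ t) i).symm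

include hφ

theorem hom_one : φ 1 = 0 := by
  have := hφ 1 1
  rw [mul_one] at this
  exact left_eq_add.1 this

theorem hom_zpow (x : N) (k : ℤ) : φ (x ^ k) = (k : ℂ) * φ x := by
  let f : N →* Multiplicative ℂ :=
    { toFun := fun x => Multiplicative.ofAdd (φ x)
      map_one' := by rw [hom_one hφ]; rfl
      map_mul' := fun x y => by rw [hφ]; rfl }
  have h := map_zpow f x k
  have h2 : φ (x ^ k) = Multiplicative.toAdd (f x ^ k) := by rw [← h]; rfl
  rw [h2, toAdd_zpow]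
  show k • φ x = _
  rw [zsmul_eq_mul]

theorem hom_list (l : List N) : φ l.prod = (l.map φ).sum := by
  induction l with
  | nil => simp [hom_one hφ]
  | cons a l ih => rw [List.prod_cons, hφ, ih, List.map_cons, List.sum_cons]

theorem PhiR_ι (y : N) : PhiR R φ (R.ι y) = φ y := by
  conv_rhs => rw [← D.prod_c y, hom_list hφ, List.map_ofFn, List.sum_ofFn]
  unfold PhiR
  refine Finset.sum_congr rfl fun i _ => ?_
  rw [Function.comp_apply, hom_zpow hφ, R.ι_apply, Complex.real_smul]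
  push_cast
  rfl

theorem PhiR_mul (s t : R.NR) : PhiR R φ (s * t) = PhiR R φ s + PhiR R φ t := by
  have h1 : ∀ (y : N) (s : R.NR), PhiR R φ (s * R.ι y) = PhiR R φ s + φ y := by
    intro y
    refine R.dens (f := fun s => PhiR R φ (s * R.ι y)) (g := fun s => PhiR R φ s + φ y) ?_ ?_ ?_
    · intro γ hγ
      let γ' : ℝ → R.NR := fun t => γ t
      refine PC_PhiR R φ (γ := fun t => γ' t * R.ι y) fun i => ?_
      refine PC_coord R (γ := fun t => γ' t * R.ι y) ?_ i
      refine ((R.PC_E hγ).mul (PC.const (R.toA (R.ι y)))).congr fun t => ?_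
      exact map_mul R.toA (γ' t) (R.ι y)
    · intro γ hγ
      exact (PC_PhiR R φ hγ).add (PC.const _)
    · intro x
      rw [← map_mul, PhiR_ι R hφ, PhiR_ι R hφ, hφ]
  refine R.dens (f := fun t => PhiR R φ (s * t)) (g := fun t => PhiR R φ s + PhiR R φ t)
    ?_ ?_ ?_ t
  · intro γ hγ
    let γ' : ℝ → R.NR := fun t => γ t
    refine PC_PhiR R φ (γ := fun t => s * γ' t) fun i => ?_
    refine PC_coord R (γ := fun t => s * γ' t) ?_ i
    refine ((PC.const (R.toA s)).mul (R.PC_E hγ)).congr fun t => ?_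
    exact map_mul R.toA s (γ' t)
  · intro γ hγ
    exact (PC.const _).add (PC_PhiR R φ hγ)
  · intro y
    rw [h1, PhiR_ι R hφ]

theorem PhiR_smul (v : R.V) (t : ℝ) : PhiR R φ (R.Ex (t • v)) = t • PhiR R φ (R.Ex v) := by
  have hp : PC fun t : ℝ => PhiR R φ (R.Ex (t • v)) := by
    refine PC_PhiR R φ (γ := fun t => (R.Ex (t • v) : R.NR)) fun i => ?_
    refine PC_coord R (γ := fun t => R.Ex (t • v)) ?_ i
    refine (PC.ex (m := R.m) (v := (v : A))).congr fun t => ?_
    rw [R.toA_Ex]; rfl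
  have h1 : ∀ k : ℕ, PhiR R φ (R.Ex ((k : ℝ) • v)) = (k : ℝ) • PhiR R φ (R.Ex v) := by
    intro k
    induction k with
    | zero =>
      have := PhiR_mul R hφ 1 1
      rw [mul_one] at this
      have h0 := left_eq_add.1 this
      simp only [Nat.cast_zero, zero_smul, R.Ex_zero, h0]
    | succ k ih =>
      rw [Nat.cast_succ, R.Ex_add, PhiR_mul R hφ, ih, one_smul, add_smul, one_smul]
  exact PC.eq_of_nat hp (PC.id.smul (PC.const _)) h1 t

/-- the extension is a linear functional of the logarithm -/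
theorem exists_lin : ∃ L : R.V →ₗ[ℝ] ℂ, ∀ v, L v = PhiR R φ (R.Ex v) := by
  have hd : Differentiable ℝ (fun v : R.V => PhiR R φ (R.Ex v)) := by
    have h : (fun v : R.V => PhiR R φ (R.Ex v)) =
        fun v : R.V => ∑ i, (R.ℓ i (ex R.m (v : A))) • φ (D.b i) := by
      funext v
      unfold PhiR
      refine Finset.sum_congr rfl fun i _ => ?_
      rw [← R.toA_Ex]
      exact congrArg (fun x : ℝ => x • φ (D.b i)) (R.ℓ_toA (R.Ex v) i).symm
    rw [h]
    have h0 : Differentiable ℝ (fun v : R.V => ex R.m (v : A)) :=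
      Differentiable.comp (g := fun v : A => ex R.m v) (f := fun v : R.V => (v : A))
        (differentiable_ex R.m) R.V.subtypeL.differentiable
    refine Differentiable.fun_sum fun i _ => ?_
    refine Differentiable.smul_const ?_ _
    have h2 : Differentiable ℝ (fun a : A => R.ℓ i a) :=
      (LinearMap.toContinuousLinearMap (R.ℓ i)).differentiable
    exact Differentiable.comp (g := fun a : A => R.ℓ i a) (f := fun v : R.V => ex R.m (v : A)) h2 h0
  set ψ : R.V → ℂ := fun v => PhiR R φ (R.Ex v) with hψ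
  have h0 : ψ 0 = 0 := by
    have := PhiR_smul R hφ 0 0
    rw [zero_smul, zero_smul] at this
    exact this
  have key : ∀ v, fderiv ℝ ψ 0 v = ψ v := by
    intro v
    have h1 : HasFDerivAt ψ (fderiv ℝ ψ 0) ((fun t : ℝ => t • v) 0) := by
      simpa using (hd 0).hasFDerivAt
    have h2 : HasDerivAt (fun t : ℝ => t • v) v 0 := by
      simpa using (hasDerivAt_id (0 : ℝ)).smul_const v
    have h3 : HasDerivAt (fun t : ℝ => ψ (t • v)) (fderiv ℝ ψ 0 v) 0 :=
      HasFDerivAt.comp_hasDerivAt (l := ψ) (f := fun t : ℝ => t • v) (0 : ℝ) h1 h2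
    have h4 : (fun t : ℝ => ψ (t • v)) = fun t : ℝ => t • ψ v := by
      funext t
      exact PhiR_smul R hφ v t
    rw [h4] at h3
    have h5 : HasDerivAt (fun t : ℝ => t • ψ v) (ψ v) 0 := by
      simpa using (hasDerivAt_id (0 : ℝ)).smul_const (ψ v)
    exact h3.unique h5
  exact ⟨(fderiv ℝ ψ 0 : R.V →ₗ[ℝ] ℂ), key⟩

theorem PhiR_one : PhiR R φ 1 = 0 := by
  have := PhiR_mul R hφ 1 1
  rw [mul_one] at this
  exact left_eq_add.1 this

theorem PhiR_inv (s : R.NR) : PhiR R φ s⁻¹ = - PhiR R φ s := by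
  have := PhiR_mul R hφ s s⁻¹
  rw [mul_inv_cancel, PhiR_one R hφ] at this
  linear_combination -this

/-- the functional vanishes on brackets -/
theorem lin_lie {L : R.V →ₗ[ℝ] ℂ} (hL : ∀ v, L v = PhiR R φ (R.Ex v)) (w v : R.V) :
    L ⁅w, v⁆ = 0 := by
  -- `L (Ad (Ex (t w)) v) = L v`
  have h1 : ∀ t : ℝ, L (R.Adn (R.Ex (t • w)) v) = L v := by
    intro t
    rw [hL, R.Ex_Adn, PhiR_mul R hφ, PhiR_mul R hφ, PhiR_inv R hφ, hL]
    ring
  obtain ⟨M, hM⟩ : ∃ M, 2 * R.m = M + 1 + 1 := ⟨2 * R.m - 2, by have := R.hm0; omega⟩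
  have h2 : ∀ t : ℝ, L (R.Adn (R.Ex (t • w)) v) = L v + t • (L ⁅w, v⁆ + t •
      ∑ k ∈ Finset.range M, t ^ k • L ((((k + 2).factorial : ℝ)⁻¹) •
        ((LieAlgebra.ad ℝ R.V w) ^ (k + 2)) v)) := by
    intro t
    rw [R.Adn_Ex, hM, Finset.sum_range_succ', Finset.sum_range_succ', map_add, map_add]
    have e0 : L ((((0 : ℕ).factorial : ℝ)⁻¹) • ((LieAlgebra.ad ℝ R.V (t • w)) ^ 0) v) = L v := by
      simp
    have e1 : L ((((0 + 1 : ℕ).factorial : ℝ)⁻¹) • ((LieAlgebra.ad ℝ R.V (t • w)) ^ (0 + 1)) v) =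
        t • L ⁅w, v⁆ := by
      simp
    rw [e0, e1, map_sum, smul_add, smul_smul, Finset.smul_sum, add_comm (L v), add_assoc,
      add_comm (∑ k ∈ Finset.range M, _)]
    have e2 : ∀ k : ℕ, L ((((k + 1 + 1 : ℕ).factorial : ℝ)⁻¹) •
        ((LieAlgebra.ad ℝ R.V (t • w)) ^ (k + 1 + 1)) v) = (t * t) • (t ^ k • L ((((k + 2).factorial : ℝ)⁻¹) •
        ((LieAlgebra.ad ℝ R.V w) ^ (k + 2)) v)) := by
      intro k
      rw [map_smul (LieAlgebra.ad ℝ R.V), smul_pow, LinearMap.smul_apply, smul_comm, map_smul,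
        smul_smul]
      congr 1
      ring
    simp only [e2]
    abel
  have h3 : ∀ t : ℝ, t ≠ 0 → L ⁅w, v⁆ + t • ∑ k ∈ Finset.range M, t ^ k •
      L ((((k + 2).factorial : ℝ)⁻¹) • ((LieAlgebra.ad ℝ R.V w) ^ (k + 2)) v) = 0 := by
    intro t ht
    have := h2 t
    rw [h1] at this
    have h4 := left_eq_add.1 this
    exact (smul_eq_zero.1 h4).resolve_left ht
  have hc : Continuous fun t : ℝ => L ⁅w, v⁆ + t • ∑ k ∈ Finset.range M, t ^ k •
      L ((((k + 2).factorial : ℝ)⁻¹) • ((LieAlgebra.ad ℝ R.V w) ^ (k + 2)) v) := by fun_prop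
  have h4 : Tendsto (fun t : ℝ => L ⁅w, v⁆ + t • ∑ k ∈ Finset.range M, t ^ k •
      L ((((k + 2).factorial : ℝ)⁻¹) • ((LieAlgebra.ad ℝ R.V w) ^ (k + 2)) v)) (𝓝[≠] 0)
      (𝓝 (L ⁅w, v⁆)) := by
    have := hc.tendsto 0
    rw [zero_smul, add_zero] at this
    exact this.mono_left nhdsWithin_le_nhds
  have h5 : Tendsto (fun t : ℝ => L ⁅w, v⁆ + t • ∑ k ∈ Finset.range M, t ^ k •
      L ((((k + 2).factorial : ℝ)⁻¹) • ((LieAlgebra.ad ℝ R.V w) ^ (k + 2)) v)) (𝓝[≠] 0)
      (𝓝 0) := by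
    refine tendsto_const_nhds.congr' ?_
    filter_upwards [self_mem_nhdsWithin] with t ht
    exact (h3 t ht).symm
  exact tendsto_nhds_unique h4 h5

end Vale.Agent.P188.H131
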