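import Vale.Agent.P188.H131.GeoRay
import Vale.Agent.P188.Z1.Extra

/-!
# P188, route B: fields of `H532.Geo` over `RModel` : crossed homomorphisms
-/

set_option linter.all false

open MeasureTheory Set
open Vale.Agent.P188.Z1

namespace Vale.Agent.P188.H131

section chi

variable {S : Type} [Group S] [MeasurableSpace S] {Γ : Type} [Group Γ]
  {V : Type} [AddCommGroup V] [Module ℝ V] {k : ℕ} {M : RModel S Γ V k} {J : Type}
  (Rd : H615.RayD M J)

/-- the crossed homomorphisms of the rays exist -/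
theorem exists_X (hE : M.Extra) : Nonempty (∀ j, M.CrossS (Rd.b j)) :=
  ⟨fun j => (hE.crossS _ (Rd.mem j)).some⟩

variable {Rd} (X : ∀ j, M.CrossS (Rd.b j))

theorem χ_norm (j : J) (g : S) : ‖(X j).ρ g‖ = Real.exp (gb Rd j (M.θ g)) := (X j).norm_ρ g

theorem χ_mul (j : J) (g h : S) : (X j).ρ (g * h) = (X j).ρ g * (X j).ρ h := (X j).ρ_mul g h

theorem D_mul (j : J) (g h : S) : (X j).D (g * h) = (X j).D g + (X j).ρ g * (X j).D h :=
  (X j).D_mul g h

theorem χ_inc (j : J) (n : M.NR) : (X j).ρ (M.NR.subtype n) = 1 := (X j).ρ_ker _ (M.mem_NR.1 n.2)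

theorem D_le [Fintype J] : ∃ C0 : ℝ, 0 ≤ C0 ∧ ∀ C : ℝ, C0 ≤ C → ∀ (j : J) (g : S),
    ‖(X j).D g‖ ≤ C * Real.exp (C * M.l g) := by
  have h0 : 0 ≤ ∑ j, |(X j).C| := Finset.sum_nonneg fun _ _ => abs_nonneg _
  refine ⟨Real.exp (∑ j, |(X j).C|), (Real.exp_pos _).le, fun C hC j g => ?_⟩
  have h1 : |(X j).C| ≤ ∑ j, |(X j).C| :=
    Finset.single_le_sum (f := fun j => |(X j).C|) (fun _ _ => abs_nonneg _) (Finset.mem_univ j)
  have h2 : ∑ j, |(X j).C| ≤ C := by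
    have := Real.add_one_le_exp (∑ j, |(X j).C|)
    linarith
  have hl : (0 : ℝ) ≤ M.l g := Nat.cast_nonneg _
  refine ((X j).D_le g).trans ?_
  have h3 : (X j).C * ((M.l g : ℝ) + 1) ≤ (∑ j, |(X j).C|) + C * M.l g := by
    calc (X j).C * ((M.l g : ℝ) + 1) ≤ |(X j).C| * ((M.l g : ℝ) + 1) :=
          mul_le_mul_of_nonneg_right (le_abs_self _) (by linarith)
      _ = |(X j).C| + |(X j).C| * M.l g := by ring
      _ ≤ _ := add_le_add h1 (mul_le_mul_of_nonneg_right (h1.trans h2) hl)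
  calc Real.exp ((X j).C * ((M.l g : ℝ) + 1)) ≤ Real.exp ((∑ j, |(X j).C|) + C * M.l g) :=
        Real.exp_le_exp.2 h3
    _ = Real.exp (∑ j, |(X j).C|) * Real.exp (C * M.l g) := Real.exp_add _ _
    _ ≤ _ := mul_le_mul_of_nonneg_right hC (Real.exp_pos _).le

end chi

end Vale.Agent.P188.H131
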