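import Vale.Agent.P188.H131.GeoRay
import Vale.Agent.P188.H616.M1

/-!
# P188, route B: fields of `H532.Geo` over `RModel` : directions and window

`p j = en (b j)`, `t j = τ (v j)` with `v j` integral near the facet direction of `b j`.
-/

set_option linter.all false

open MeasureTheory Set
open Vale.Agent.P188.Z1
open Vale.Agent.P188.Z1.RModel.F6

namespace Vale.Agent.P188.H131

/-- integral points near a large multiple of a vector -/
theorem exists_round {k : ℕ} (u : Z1.Ht k) : ∃ v : Fin k → ℤ, ‖RModel.ht v - u‖ ≤ 1 := by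
  refine ⟨fun i => ⌊u i⌋, ?_⟩
  rw [pi_norm_le_iff_of_nonneg zero_le_one]
  intro i
  have h : (RModel.ht (fun i => ⌊u i⌋) - u) i = (⌊u i⌋ : ℝ) - u i := rfl
  rw [h, Real.norm_eq_abs, abs_le]
  have h1 := Int.floor_le (u i)
  have h2 := Int.lt_floor_add_one (u i)
  constructor <;> linarith

/-- numerical core -/
theorem dir_key {e₀ g B N c δ c1 p q : ℝ} (he0 : 0 < e₀) (hg0 : 0 < g) (hB1 : 1 ≤ B) (hN1 : 1 ≤ N)
    (hNg : 8 * (B * B) ≤ N * (e₀ * g)) (hc0 : 0 < c) (hc2 : c * (32 * B) ≤ e₀ * g)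
    (hδ0 : 0 ≤ δ) (hδ : δ ≤ c) (hc10 : 0 ≤ c1) (hc1c : c1 ≤ c) (hp : e₀ ≤ p) (hq : e₀ ≤ q)
    (hpB : p ≤ B) (hqB : q ≤ B) (h0 : 0 ≤ N * (q - g) + B) (h1 : 0 ≤ N * p - B) :
    (p + 2 * δ) * (N * (q - g) + B) ≤ (q - δ - c1) * (N * p - B) := by
  have hN0 : 0 ≤ N := by linarith
  have hB0 : 0 ≤ B := by linarith
  have e1 : N * (e₀ * g) ≤ N * (p * g) :=
    mul_le_mul_of_nonneg_left (mul_le_mul_of_nonneg_right hp hg0.le) hN0
  have e2 : B * p + B * q ≤ 2 * (B * B) := by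
    have a1 := mul_le_mul_of_nonneg_left hpB hB0
    have a2 := mul_le_mul_of_nonneg_left hqB hB0
    linarith
  have a1 : N * (q - g) + B ≤ 2 * B * N := by
    have b1 : N * (q - g) ≤ N * B := mul_le_mul_of_nonneg_left (by linarith) hN0
    have b2 : B * 1 ≤ B * N := mul_le_mul_of_nonneg_left hN1 hB0
    linarith
  have a2 : N * p - B ≤ B * N := by
    have b1 : N * p ≤ N * B := mul_le_mul_of_nonneg_left hpB hN0
    linarith
  have e3 : 2 * δ * (N * (q - g) + B) ≤ 4 * (c * B) * N := by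
    calc 2 * δ * (N * (q - g) + B) ≤ 2 * c * (N * (q - g) + B) :=
          mul_le_mul_of_nonneg_right (by linarith) h0
      _ ≤ 2 * c * (2 * B * N) := mul_le_mul_of_nonneg_left a1 (by linarith)
      _ = 4 * (c * B) * N := by ring
  have e4 : (δ + c1) * (N * p - B) ≤ 2 * (c * B) * N := by
    calc (δ + c1) * (N * p - B) ≤ (2 * c) * (N * p - B) :=
          mul_le_mul_of_nonneg_right (by linarith) h1
      _ ≤ (2 * c) * (B * N) := mul_le_mul_of_nonneg_left a2 (by linarith)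
      _ = 2 * (c * B) * N := by ring
  have e5 : (c * (32 * B)) * N ≤ (e₀ * g) * N := mul_le_mul_of_nonneg_right hc2 hN0
  have e6 : 0 ≤ N * (e₀ * g) := by positivity
  linarith

theorem dir_num {e₀ g B N c δ c1 p q A D x y z m : ℝ} (he0 : 0 < e₀) (hg0 : 0 < g) (hB1 : 1 ≤ B)
    (hN1 : 1 ≤ N) (hNe : 2 * B ≤ N * e₀)
    (hNg : 8 * (B * B) ≤ N * (e₀ * g)) (hc0 : 0 < c) (hc1 : c ≤ e₀ / 2)
    (hc2 : c * (32 * B) ≤ e₀ * g)
    (hδ0 : 0 ≤ δ) (hδ : δ ≤ c) (hc10 : 0 ≤ c1) (hc1c : c1 ≤ c) (hp : e₀ ≤ p) (hq : e₀ ≤ q)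
    (hpB : p ≤ B) (hqB : q ≤ B) (hx : 0 ≤ x) (hm : 0 ≤ m) (hy : y ≤ x * p + δ * x)
    (hz : x * q - δ * x ≤ z) (hA : N * p - B ≤ A) (hD : D ≤ N * (q - g) + B)
    (hmi : m * A ≤ y + δ * x) : m * D ≤ z - c1 * x := by
  have hN0 : 0 ≤ N := by linarith
  have hB0 : 0 ≤ B := by linarith
  have hAB : B ≤ N * p - B := by
    have : N * e₀ ≤ N * p := mul_le_mul_of_nonneg_left hp hN0
    linarith
  have hA0 : 0 < A := by linarith
  have hT : (q - δ - c1) * x ≤ z - c1 * x := by linarith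
  refine le_trans ?_ hT
  have hq0 : 0 ≤ q - δ - c1 := by linarith
  rcases le_total D 0 with hD0 | hD0
  · have : m * D ≤ 0 := mul_nonpos_of_nonneg_of_nonpos hm hD0
    exact this.trans (mul_nonneg hq0 hx)
  · have hmA : m * A ≤ (p + 2 * δ) * x := by linarith
    have key := dir_key he0 hg0 hB1 hN1 hNg hc0 hc2 hδ0 hδ hc10 hc1c hp hq hpB hqB
      (by linarith) (by linarith)
    have b1 : m * A * D ≤ (p + 2 * δ) * x * D := mul_le_mul_of_nonneg_right hmA hD0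
    have b2 : (p + 2 * δ) * x * D ≤ (p + 2 * δ) * x * (N * (q - g) + B) := by
      refine mul_le_mul_of_nonneg_left hD ?_
      have : 0 ≤ p + 2 * δ := by linarith
      positivity
    have b3 : (p + 2 * δ) * (N * (q - g) + B) * x ≤ (q - δ - c1) * (N * p - B) * x :=
      mul_le_mul_of_nonneg_right key hx
    have b4 : (q - δ - c1) * x * (N * p - B) ≤ (q - δ - c1) * x * A :=
      mul_le_mul_of_nonneg_left hA (mul_nonneg hq0 hx)
    have hfin : m * D * A ≤ (q - δ - c1) * x * A := by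
      calc m * D * A = m * A * D := by ring
        _ ≤ (p + 2 * δ) * x * D := b1
        _ ≤ (p + 2 * δ) * x * (N * (q - g) + B) := b2
        _ = (p + 2 * δ) * (N * (q - g) + B) * x := by ring
        _ ≤ (q - δ - c1) * (N * p - B) * x := b3
        _ = (q - δ - c1) * x * (N * p - B) := by ring
        _ ≤ (q - δ - c1) * x * A := b4
    exact le_of_mul_le_mul_right hfin hA0

section dirs

variable {S : Type} [Group S] [MeasurableSpace S] {Γ : Type} [Group Γ]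
  {V : Type} [AddCommGroup V] [Module ℝ V] {k : ℕ} {M : RModel S Γ V k} {J : Type}
  (Rd : H615.RayD M J) [Fintype J]

/-- integral directions near the facets: the numerical core of the field `dir` -/
theorem exists_dirs : ∃ (v : J → Fin k → ℤ) (c : ℝ), 0 < c ∧
    (∀ j, 0 < Rd.b j (RModel.ht (v j))) ∧ (∀ j, 2 * c ≤ en (Rd.b j)) ∧
    ∀ δ c1 : ℝ, 0 ≤ δ → δ ≤ c → 0 ≤ c1 → c1 ≤ c → ∀ i j, j ≠ i → ∀ (x y z m : ℝ), 0 ≤ x → 0 ≤ m →
      |y - x * en (Rd.b i)| ≤ δ * x → |z - x * en (Rd.b j)| ≤ δ * x →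
      m * Rd.b i (RModel.ht (v i)) ≤ y + δ * x → m * Rd.b j (RModel.ht (v i)) ≤ z - c1 * x := by
  classical
  obtain ⟨e₀, he0, he⟩ := exists_en_lower M
  obtain ⟨g, hg0, hg⟩ := exists_gap M
  set B : ℝ := 1 + ∑ b ∈ M.Φ, (‖b‖ + en b) with hB
  have hBb : ∀ b ∈ M.Φ, ‖b‖ + en b ≤ B := by
    intro b hb
    have := Finset.single_le_sum (f := fun b : Z1.Ht k →L[ℝ] ℝ => ‖b‖ + en b)
      (fun b _ => add_nonneg (norm_nonneg _) (en_nonneg b)) hb
    rw [hB]; linarith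
  have hB1 : 1 ≤ B := by
    have := Finset.sum_nonneg (s := M.Φ) (f := fun b : Z1.Ht k →L[ℝ] ℝ => ‖b‖ + en b)
      (fun b _ => add_nonneg (norm_nonneg _) (en_nonneg b))
    rw [hB]; linarith
  set N : ℝ := 1 + 2 * B / e₀ + 8 * (B * B) / (e₀ * g) with hN
  have hN1 : 1 ≤ N := by
    have h1 : 0 ≤ 2 * B / e₀ := by positivity
    have h2 : 0 ≤ 8 * (B * B) / (e₀ * g) := by positivity
    rw [hN]; linarith
  have hNe : 2 * B ≤ N * e₀ := by
    have h1 : 0 ≤ 8 * (B * B) / (e₀ * g) := by positivity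
    have h2 : 2 * B / e₀ ≤ N := by rw [hN]; linarith
    rwa [div_le_iff₀ he0] at h2
  have hNg : 8 * (B * B) ≤ N * (e₀ * g) := by
    have h1 : 0 ≤ 2 * B / e₀ := by positivity
    have h2 : 8 * (B * B) / (e₀ * g) ≤ N := by rw [hN]; linarith
    rwa [div_le_iff₀ (by positivity)] at h2
  choose v hv using fun j : J => exists_round (N • fd (Rd.b j))
  set c : ℝ := min (e₀ / 2) (e₀ * g / (32 * B)) with hc
  have hc0 : 0 < c := lt_min (by positivity) (by positivity)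
  have hc1 : c ≤ e₀ / 2 := min_le_left _ _
  have hc2 : c * (32 * B) ≤ e₀ * g := by
    have : c ≤ e₀ * g / (32 * B) := min_le_right _ _
    rwa [le_div_iff₀ (by positivity)] at this
  -- values of the functionals
  have hval : ∀ i, ∀ b ∈ M.Φ, |b (RModel.ht (v i)) - N * b (fd (Rd.b i))| ≤ B := by
    intro i b hb
    have h1 : b (RModel.ht (v i)) - N * b (fd (Rd.b i)) = b (RModel.ht (v i) - N • fd (Rd.b i)) := by
      rw [map_sub, map_smul, smul_eq_mul]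
    rw [h1, ← Real.norm_eq_abs]
    refine (b.le_opNorm _).trans ?_
    have h2 := hBb b hb
    have h3 := en_nonneg b
    have h4 := hv i
    nlinarith [norm_nonneg b, norm_nonneg (RModel.ht (v i) - N • fd (Rd.b i))]
  have hpos : ∀ i, N * en (Rd.b i) - B ≤ Rd.b i (RModel.ht (v i)) := by
    intro i
    have h1 := (abs_le.1 (hval i _ (Rd.mem i))).1
    rw [fd_self (Rd.b_ne i)] at h1
    linarith
  have hposB : ∀ i, B ≤ N * en (Rd.b i) - B := by
    intro i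
    have h1 := he _ (Rd.mem i)
    nlinarith
  refine ⟨v, c, hc0, fun j => ?_, fun j => ?_, ?_⟩
  · have h1 := hpos j
    have h2 := hposB j
    linarith
  · have h1 := he _ (Rd.mem j)
    linarith
  · intro δ c1 hδ0 hδ hc10 hc1c i j hij x y z m hx hm hy hz hmi
    have hpi := he _ (Rd.mem i)
    have hpj := he _ (Rd.mem j)
    have hPi := hBb _ (Rd.mem i)
    have hPj := hBb _ (Rd.mem j)
    have hni := norm_nonneg (Rd.b i)
    have hnj := norm_nonneg (Rd.b j)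
    have h1 := (abs_le.1 hy).2
    have h2 := (abs_le.1 hz).1
    have hD : Rd.b j (RModel.ht (v i)) ≤ N * (en (Rd.b j) - g) + B := by
      have h3 := (abs_le.1 (hval i _ (Rd.mem j))).2
      rcases hg _ (Rd.mem i) _ (Rd.mem j) with ⟨t, ht, h4⟩ | h4
      · exact absurd (Rd.uniq j i t ht h4) hij
      · have : N * Rd.b j (fd (Rd.b i)) ≤ N * (en (Rd.b j) - g) :=
          mul_le_mul_of_nonneg_left h4 (by linarith)
        linarith
    exact dir_num he0 hg0 hB1 hN1 hNe hNg hc0 hc1 hc2 hδ0 hδ hc10 hc1c hpi hpj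
      (by linarith) (by linarith) hx hm (by linarith) (by linarith) (hpos i) hD hmi

/-- **directions and window**: the fields `t`, `t_le`, `t_pos`, `p`, `δ0`, `c1`, `p_lb`, `p_ub`, `dir` -/
theorem exists_t : ∃ (v : J → Fin k → ℤ) (c C0 : ℝ), 0 < c ∧ c ≤ 1 ∧ 0 ≤ C0 ∧
    (∀ C : ℝ, C0 ≤ C → ∀ j, (M.l (M.τ (v j)) : ℝ) ≤ C) ∧
    (∀ j, 0 < gb Rd j (M.θ (M.τ (v j)))) ∧
    (∀ δ0 c1 : ℝ, δ0 ≤ c → c1 ≤ c → ∀ j, c1 + δ0 ≤ en (Rd.b j)) ∧
    (∀ C : ℝ, C0 ≤ C → ∀ δ0 : ℝ, δ0 ≤ c → ∀ j, en (Rd.b j) + δ0 ≤ C) ∧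
    ∀ δ0 c1 : ℝ, 0 < δ0 → δ0 ≤ c → 0 < c1 → c1 ≤ c →
      ∀ i j, j ≠ i → ∀ (x : ℝ) (ρ : Option J → ℝ), 0 ≤ x →
        (∀ j, |ρ (some j) - x * en (Rd.b j)| ≤ δ0 * x) → ∀ m : ℕ,
        m * gb Rd i (M.θ (M.τ (v i))) ≤ ρ (some i) + δ0 * x →
        m * gb Rd j (M.θ (M.τ (v i))) ≤ ρ (some j) - c1 * x := by
  obtain ⟨v, c, hc0, h1, h2, h3⟩ := exists_dirs Rd
  have hθ : ∀ i, M.θ (M.τ (v i)) = RModel.ht (v i) := fun i => M.θ_τ (v i)
  have hs1 : 0 ≤ ∑ j, (M.l (M.τ (v j)) : ℝ) := Finset.sum_nonneg fun _ _ => Nat.cast_nonneg _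
  have hs2 : 0 ≤ ∑ j, en (Rd.b j) := Finset.sum_nonneg fun _ _ => en_nonneg _
  refine ⟨v, min c 1, 1 + ∑ j, (M.l (M.τ (v j)) : ℝ) + ∑ j, en (Rd.b j), lt_min hc0 one_pos,
    min_le_right _ _, by linarith, fun C hC j => ?_, fun j => ?_, fun δ0 c1 hδ hc j => ?_,
    fun C hC δ0 hδ j => ?_, ?_⟩
  · have := Finset.single_le_sum (f := fun j => (M.l (M.τ (v j)) : ℝ))
      (fun _ _ => Nat.cast_nonneg _) (Finset.mem_univ j)
    linarith
  · rw [gb_apply, hθ]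
    exact h1 j
  · have := h2 j
    have h5 : δ0 ≤ c := hδ.trans (min_le_left _ _)
    have h6 : c1 ≤ c := hc.trans (min_le_left _ _)
    linarith
  · have := Finset.single_le_sum (f := fun j => en (Rd.b j))
      (fun _ _ => en_nonneg _) (Finset.mem_univ j)
    have h5 : δ0 ≤ 1 := hδ.trans (min_le_right _ _)
    linarith
  · intro δ0 c1 hδ hδc hc hcc i j hij x ρ hx hρ m hm
    rw [gb_apply, hθ] at hm ⊢
    exact h3 δ0 c1 hδ.le (hδc.trans (min_le_left _ _)) hc.le (hcc.trans (min_le_left _ _)) i j hij x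
      _ _ m hx (Nat.cast_nonneg m) (hρ i) (hρ j) hm

end dirs

end Vale.Agent.P188.H131
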