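import Vale.Agent.P188.Z1.RModel
import Mathlib.MeasureTheory.Group.Prod
import Mathlib.GroupTheory.GroupAction.ConjAct

/-!
# P188, route B: `E = N_R = ker η` as a measurable group with Haar measure

Fields of `H532.Geo` : `ν`, `ν_mm`, `ν_mi`, `ν_left`, `ν_right`, `ν_inv`, `ν_sf`, `cj`, `inc_cj`,
`cj_mp`.
-/

set_option linter.all false

open MeasureTheory Set
open Agent.P188.H428 (IsLen)

namespace Vale.Agent.P188.Z1

namespace RModel

variable {S : Type} [Group S] [MeasurableSpace S] {Γ : Type} [Group Γ]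
  {V : Type} [AddCommGroup V] [Module ℝ V] {k : ℕ} (M : RModel S Γ V k)

/-- `N_R = ker η` -/
abbrev NR : Subgroup S := M.η.ker

theorem mem_NR {z : S} : z ∈ M.NR ↔ M.η z = 1 := MonoidHom.mem_ker

theorem meas_NR : MeasurableSet (M.NR : Set S) := by
  have : (M.NR : Set S) = {x | M.η x = 1} := by
    ext x
    simp [MonoidHom.mem_ker]
  rw [this]
  exact M.η_meas 1

/-- the Haar measure of `N_R` -/
noncomputable def nu : Measure M.NR := Measure.comap Subtype.val M.μ

theorem nuEmb : MeasurableEmbedding (Subtype.val : M.NR → S) :=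
  MeasurableEmbedding.subtype_coe M.meas_NR

theorem nu_apply (A : Set M.NR) : M.nu A = M.μ (Subtype.val '' A) := by
  unfold nu
  exact MeasurableEmbedding.comap_apply M.nuEmb M.μ A

/-- the measure of a set of `S` which is contained in `N_R` -/
theorem nu_preimage {B : Set S} (hB : ∀ x ∈ B, M.η x = 1) :
    M.nu (Subtype.val ⁻¹' B) = M.μ B := by
  rw [nu_apply]
  congr 1
  ext x
  constructor
  · rintro ⟨y, h, rfl⟩; exact h
  · intro h
    exact ⟨⟨x, M.mem_NR.2 (hB x h)⟩, h, rfl⟩

theorem nu_setOf {P : S → Prop} :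
    M.nu {n : M.NR | P n} = M.μ {x | M.η x = 1 ∧ P x} := by
  rw [nu_apply]
  congr 1
  ext x
  constructor
  · rintro ⟨n, hn, rfl⟩
    exact ⟨M.mem_NR.1 n.2, hn⟩
  · rintro ⟨h1, h2⟩
    exact ⟨⟨x, M.mem_NR.2 h1⟩, h2, rfl⟩

/-- the right translate of a subset of `N_R` -/
theorem nu_mm : MeasurableMul₂ M.NR := by
  haveI := M.mm
  refine ⟨Measurable.subtype_mk ?_⟩
  exact (measurable_subtype_coe.comp measurable_fst).mul
    (measurable_subtype_coe.comp measurable_snd)

theorem nu_mi : MeasurableInv M.NR := by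
  haveI := M.mi
  exact ⟨Measurable.subtype_mk measurable_subtype_coe.inv⟩

theorem mu_left : M.μ.IsMulLeftInvariant := ⟨fun g => (M.mpl g).map_eq⟩

theorem mu_right : M.μ.IsMulRightInvariant := ⟨fun g => (M.mp g).map_eq⟩

theorem mu_sf : SigmaFinite M.μ := by
  refine ⟨⟨⟨fun n => {x | M.l x ≤ n}, fun n => trivial, fun n => ?_, ?_⟩⟩⟩
  · exact lt_of_le_of_lt (M.ball_lt n) ENNReal.ofReal_lt_top
  · refine Set.eq_univ_of_forall fun x => mem_iUnion.2 ⟨M.l x, ?_⟩
    exact le_refl (M.l x)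

theorem mu_inv : M.μ.IsInvInvariant := by
  haveI := M.mm
  haveI := M.mi
  haveI := M.mu_left
  haveI := M.mu_right
  set B : Set S := toMeasurable M.μ {x | M.l x ≤ 2} with hB
  have h0 : M.μ B ≠ 0 := by
    rw [hB, measure_toMeasurable]
    exact M.ball_pos
  have h1 : M.μ B ≠ ⊤ := by
    rw [hB, measure_toMeasurable]
    exact ne_of_lt (lt_of_le_of_lt (M.ball_lt 2) ENNReal.ofReal_lt_top)
  have key : ∀ A : Set S, MeasurableSet A → M.μ A⁻¹ = M.μ A := by
    intro A hA
    have h := measure_mul_lintegral_eq (s := B) M.μ M.μ (measurableSet_toMeasurable M.μ _)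
      (A.indicator fun _ => (1 : ENNReal)) (measurable_const.indicator hA)
    have e1 : ∀ x : S, M.μ ((fun z => z * x) ⁻¹' B) = M.μ B := fun x =>
      (M.mp x).measure_preimage (measurableSet_toMeasurable M.μ _).nullMeasurableSet
    simp only [e1] at h
    rw [lintegral_indicator hA, lintegral_const] at h
    have e2 : ∀ x : S, A.indicator (fun _ => (1 : ENNReal)) x⁻¹ =
        A⁻¹.indicator (fun _ => (1 : ENNReal)) x := by
      intro x
      by_cases hx : x⁻¹ ∈ A
      · rw [indicator_of_mem hx, indicator_of_mem (show x ∈ A⁻¹ from hx)]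
      · rw [indicator_of_notMem hx, indicator_of_notMem (show x ∉ A⁻¹ from hx)]
    simp only [e2] at h
    rw [lintegral_const_mul _ (measurable_const.indicator hA.inv)] at h
    rw [lintegral_indicator hA.inv, lintegral_const, one_mul, one_mul, Measure.restrict_apply
      MeasurableSet.univ, Measure.restrict_apply MeasurableSet.univ, univ_inter, univ_inter] at h
    exact ((ENNReal.mul_right_inj h0 h1).1 h).symm
  refine ⟨Measure.ext fun A hA => ?_⟩
  rw [Measure.inv, Measure.map_apply measurable_inv hA]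
  exact key A hA

theorem nu_left : M.nu.IsMulLeftInvariant := by
  haveI := M.nu_mm
  refine ⟨fun g => Measure.ext fun A hA => ?_⟩
  rw [Measure.map_apply (measurable_const_mul g) hA, nu_apply, nu_apply]
  have e : Subtype.val '' ((fun x : M.NR => g * x) ⁻¹' A) =
      (fun x : S => (g : S) * x) ⁻¹' (Subtype.val '' A) := by
    ext x
    constructor
    · rintro ⟨y, hy, rfl⟩
      exact ⟨g * y, hy, rfl⟩
    · rintro ⟨y, hy, e⟩
      refine ⟨g⁻¹ * y, ?_, ?_⟩
      · show g * (g⁻¹ * y) ∈ A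
        rwa [mul_inv_cancel_left]
      · show (g : S)⁻¹ * (y : S) = x
        rw [e]
        exact inv_mul_cancel_left _ _
  rw [e]
  exact (M.mpl g).measure_preimage (M.nuEmb.measurableSet_image.2 hA).nullMeasurableSet

theorem nu_right : M.nu.IsMulRightInvariant := by
  haveI := M.nu_mm
  refine ⟨fun g => Measure.ext fun A hA => ?_⟩
  rw [Measure.map_apply (measurable_mul_const g) hA, nu_apply, nu_apply]
  have e : Subtype.val '' ((fun x : M.NR => x * g) ⁻¹' A) =
      (fun x : S => x * (g : S)) ⁻¹' (Subtype.val '' A) := by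
    ext x
    constructor
    · rintro ⟨y, hy, rfl⟩
      exact ⟨y * g, hy, rfl⟩
    · rintro ⟨y, hy, e⟩
      refine ⟨y * g⁻¹, ?_, ?_⟩
      · show y * g⁻¹ * g ∈ A
        rwa [inv_mul_cancel_right]
      · show (y : S) * (g : S)⁻¹ = x
        rw [e]
        exact mul_inv_cancel_right _ _
  rw [e]
  exact (M.mp g).measure_preimage (M.nuEmb.measurableSet_image.2 hA).nullMeasurableSet

theorem nu_inv : M.nu.IsInvInvariant := by
  haveI := M.nu_mi
  haveI := M.mi
  haveI := M.mu_inv
  refine ⟨Measure.ext fun A hA => ?_⟩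
  rw [Measure.inv, Measure.map_apply measurable_inv hA, nu_apply, nu_apply]
  have e : Subtype.val '' (Inv.inv ⁻¹' A) = (Subtype.val '' A)⁻¹ := by
    ext x
    constructor
    · rintro ⟨y, hy, rfl⟩
      exact ⟨y⁻¹, hy, rfl⟩
    · rintro ⟨y, hy, e⟩
      refine ⟨y⁻¹, ?_, ?_⟩
      · show y⁻¹⁻¹ ∈ A
        rwa [inv_inv]
      · show (y : S)⁻¹ = x
        rw [e, inv_inv]
  rw [e, Measure.measure_inv]

theorem nu_sf : SigmaFinite M.nu := by
  refine ⟨⟨⟨fun n => {x | M.l x ≤ n}, fun n => trivial, fun n => ?_, ?_⟩⟩⟩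
  · rw [nu_apply]
    refine lt_of_le_of_lt (measure_mono ?_) (lt_of_le_of_lt (M.ball_lt n) ENNReal.ofReal_lt_top)
    rintro _ ⟨y, hy, rfl⟩
    exact hy
  · refine Set.eq_univ_of_forall fun x => mem_iUnion.2 ⟨M.l x, ?_⟩
    exact le_refl (M.l x)

/-- conjugation on `N_R` -/
def cj : S →* MulAut M.NR := MulAut.conjNormal

theorem coe_cj (g : S) (n : M.NR) : (M.cj g n : S) = g * n * g⁻¹ := MulAut.conjNormal_apply g n

theorem inc_cj (g : S) (n : M.NR) : M.NR.subtype (M.cj g n) = g * M.NR.subtype n * g⁻¹ :=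
  M.coe_cj g n

theorem meas_cj (g : S) : Measurable (M.cj g) := by
  haveI := M.mm
  have h : Measurable fun n : M.NR => g * (n : S) * g⁻¹ :=
    (measurable_subtype_coe.const_mul g).mul_const g⁻¹
  have e : (M.cj g : M.NR → M.NR) =
      fun n => ⟨g * n * g⁻¹, (M.coe_cj g n) ▸ (M.cj g n).2⟩ := by
    funext n
    exact Subtype.ext (M.coe_cj g n)
  rw [e]
  exact h.subtype_mk

theorem cj_mp (g : S) : MeasurePreserving (M.cj g) M.nu M.nu := by
  refine ⟨M.meas_cj g, Measure.ext fun A hA => ?_⟩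
  rw [Measure.map_apply (M.meas_cj g) hA, nu_apply, nu_apply]
  have e : Subtype.val '' ((M.cj g) ⁻¹' A) =
      (fun x : S => g * x) ⁻¹' ((fun x : S => x * g⁻¹) ⁻¹' (Subtype.val '' A)) := by
    ext x
    constructor
    · rintro ⟨y, hy, rfl⟩
      exact ⟨M.cj g y, hy, M.coe_cj g y⟩
    · rintro ⟨y, hy, e⟩
      refine ⟨M.cj g⁻¹ y, ?_, ?_⟩
      · show M.cj g (M.cj g⁻¹ y) ∈ A
        have : M.cj g (M.cj g⁻¹ y) = y := by
          apply Subtype.ext
          rw [coe_cj, coe_cj, inv_inv]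
          group
        rwa [this]
      · rw [coe_cj, e, inv_inv]
        show g⁻¹ * (g * x * g⁻¹) * g = x
        group
  have hm : MeasurableSet (Subtype.val '' A : Set S) := M.nuEmb.measurableSet_image.2 hA
  rw [e, (M.mpl g).measure_preimage ((M.mp g⁻¹).measurable hm).nullMeasurableSet,
    (M.mp g⁻¹).measure_preimage hm.nullMeasurableSet]

end RModel

end Vale.Agent.P188.Z1
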