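import Vale.Agent.P188.H131.GeoPre
import Vale.Agent.P188.H796.GeoH2
import Vale.Agent.P188.H8.GeoQ
import Vale.Agent.P188.H615.GeoU
import Vale.Agent.P188.H428.PC3
import Vale.Agent.P188.H615.HExtB
import Vale.Agent.P188.H650.Dict

/-!
# P188, route B: the instance of `H532.Geo` on the real model
-/

set_option linter.all false

open MeasureTheory Set
open Vale.Agent.P188.Z1
open Vale.Agent.P188.H796 Vale.Agent.P188.H615 Vale.Agent.P188.H8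
open Vale.P188.H532 (Geo sh sh2 rn bump exto ob ls)

namespace Vale.Agent.P188.H131

section inst

variable {Γ : Type} [Group Γ] {k : ℕ} {η : Γ →* Multiplicative (Fin k → ℤ)} {d n : ℕ}
  {D : MB η.ker d n} {M : RModel D.S Γ D.R.V k} {J : Type} [Fintype J] [DecidableEq J]
  (Rd : H615.RayD M J) (B : M.NatBox)

/-- **the instance of `Geo` on the real model** (`H_ext` as hypothesis) -/
theorem exists_geo_ext (hB : B.Bx = NBx D M.X) (h : NatHyp M) (hE : M.Extra)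
    (hid : ∀ x : D.R.V, ∀ y ∈ M.e, ⁅x, y⁆ ∈ M.e)
    (h0 : ∀ x ∈ M.Vw 0, ∀ y ∈ M.Vw 0, ⁅x, y⁆ ∈ M.Vw 0)
    (hHe : ∃ δ₂ : ℝ, 0 < δ₂ ∧ ∀ δ : ℝ, 0 < δ → δ ≤ δ₂ → Ev (FHe Rd (Hp Rd B) δ)) :
    ∃ (X : ∀ j, M.CrossS (Rd.b j)) (v : J → Fin k → ℤ) (c : ℝ), ∀ δ : ℝ, 0 < δ →
      ∃ G : Geo D.S M.NR (Z1.Ht k) J M.ι, GDict Rd B (Uo Rd) X v c G ∧ G.δ0 ≤ δ := by
  obtain ⟨X⟩ := exists_X Rd hE
  refine ⟨X, exists_geo_of (U := Uo Rd) (Uo_N hB)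
    (fun ρ a x ha hx => Uo_ls h ρ a x ha hx _ rfl) (Rd.cj_NE hB h) (Rd.cj_CaE hB h)
    (Rd.conj_NE hB h) X (Agent.P188.H428.PC_E Rd B) ?_ ?_ ?_ (Hp Rd B) ?_ ?_ ?_ ?_ hHe⟩
  · obtain ⟨C0, h1, H⟩ := U0_Y Rd h h0
    exact ⟨C0, by linarith, fun C hC μ r hμ => H C hC μ r hμ⟩
  · intro v
    obtain ⟨C0, h1, H⟩ := Uo_merge Rd h hid v
    exact ⟨C0, by linarith, fun C hC => H C hC⟩
  · obtain ⟨C0, h0, H⟩ := D_vol_NE Rd (B := B) X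
    exact ⟨C0, by linarith, fun C hC j ρ _ r d _ => H C hC j ρ r d⟩
  · obtain ⟨C0, h0, H⟩ := Hp_sh (Rd := Rd) hB h
    exact ⟨C0, h0, fun C hC o ρ ρ' l r _ _ _ hr hρ => H C hC o ρ ρ' l r hr hρ⟩
  · obtain ⟨C0, h0, H⟩ := H_grow Rd h hB X
    exact ⟨C0, by linarith, fun C hC i ρ l l' hρ hl' hl => H C hC i ρ l l' hρ hl' hl⟩
  · obtain ⟨C0, h0, H⟩ := geo_cov (Rd := Rd) hB h
    exact ⟨C0, h0, fun C hC o ρ l _ hl _ => H C hC o ρ l hl⟩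
  · obtain ⟨C0, h0, H⟩ := geo_sep (Rd := Rd) hB h
    exact ⟨C0, h0, fun C hC o ρ l C1 _ _ hC1 => H C hC o ρ l C1 hC1⟩

/-- **the instance of `Geo` on the real model** -/
theorem exists_geo (hB : B.Bx = NBx D M.X) (h : NatHyp M) (hE : M.Extra)
    (hid : ∀ x : D.R.V, ∀ y ∈ M.e, ⁅x, y⁆ ∈ M.e)
    (h0 : ∀ x ∈ M.Vw 0, ∀ y ∈ M.Vw 0, ⁅x, y⁆ ∈ M.Vw 0) :
    ∃ (X : ∀ j, M.CrossS (Rd.b j)) (v : J → Fin k → ℤ) (c : ℝ), ∀ δ : ℝ, 0 < δ →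
      ∃ G : Geo D.S M.NR (Z1.Ht k) J M.ι, GDict Rd B (Uo Rd) X v c G ∧ G.δ0 ≤ δ := by
  refine exists_geo_ext Rd B hB h hE hid h0 ?_
  obtain ⟨δ1, hδ1, C0, hC0, H⟩ := Hp_ext (Rd := Rd) h hB
  exact ⟨δ1, hδ1, fun δ hδ hδ' => ⟨C0, hC0, fun C hC => H δ hδ hδ' C hC⟩⟩

end inst

/-- a real model with all its structures, and `Geo` instances with small windows -/
theorem exists_model_geo {Γ : Type} [Group Γ] {k : ℕ} {η : Γ →* Multiplicative (Fin k → ℤ)}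
    (h : H187.Z0 Γ k η) : ∃ (d n : ℕ) (D : MB η.ker d n) (F : Set Γ) (t : D.S)
      (M : RModel D.S Γ D.R.V k) (B : M.NatBox), Conc D h.surj F t M ∧ M.Extra ∧
      M.η.comp M.inG = η ∧ F.Finite ∧ Subgroup.closure F = ⊤ ∧ NatHyp M ∧
      B.Bx = NBx D M.X ∧ B.Fine ∧
      ∀ (J : Type) [Fintype J] [DecidableEq J] (Rd : H615.RayD M J),
        ∃ (X : ∀ j, M.CrossS (Rd.b j)) (v : J → Fin k → ℤ) (c : ℝ), ∀ δ : ℝ, 0 < δ →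
          ∃ G : Geo D.S M.NR (Z1.Ht k) J M.ι, GDict Rd B (Uo Rd) X v c G ∧ G.δ0 ≤ δ := by
  obtain ⟨d, n, D, F, t, M, B, hM, hE, hc, hF, hgen, hN, hB, hB', hid, h0⟩ := exists_model_dict h
  exact ⟨d, n, D, F, t, M, B, hM, hE, hc, hF, hgen, hN, hB, hB',
    fun J _ _ Rd => exists_geo Rd B hB hN hE hid h0⟩

end Vale.Agent.P188.H131
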