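import Vale.Agent.P188.H615.GeoE2
import Vale.Agent.P188.H615.GeoK
import Vale.Agent.P188.H650.GeoY
import Vale.Agent.P188.H131.GeoDir
import Vale.Agent.P188.H131.GeoChi
import Vale.Agent.P188.H789.Geo1
import Vale.Agent.P188.Z1.InB2

/-!
# P188, route B: assembly of the instance of `H532.Geo`, over an arbitrary `RModel`

The ray groups `U` and the packing function `H` are parameters.
-/

set_option linter.all false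

open MeasureTheory Set
open Vale.Agent.P188.Z1
open Vale.Agent.P188.Z1.RModel.F6
open Vale.Agent.P188.H615
open Vale.P188.H532 (Geo sh sh2 rn bump exto ob ls)

namespace Vale.Agent.P188.H131

section inst

variable {S : Type} [Group S] [MeasurableSpace S] {Γ : Type} [Group Γ]
  {V : Type} [AddCommGroup V] [Module ℝ V] {k : ℕ} {M : RModel S Γ V k} {J : Type}
  [Fintype J] [DecidableEq J] (Rd : H615.RayD M J) (B : M.NatBox)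
  (U : Option J → ℝ → ℝ → Set M.NR)

/-- the dictionary of the instance -/
structure GDict (X : ∀ j, M.CrossS (Rd.b j)) (v : J → Fin k → ℤ) (c : ℝ)
    (G : Geo S M.NR (Z1.Ht k) J M.ι) : Prop where
  l : G.l = fun g => (M.l g : ℝ)
  θ : G.θ = M.θ
  inc : G.inc = M.NR.subtype
  cj : G.cj = M.cj
  ν : G.ν = M.nu
  er : G.er = erf G.C
  b : G.b = gb Rd
  t : G.t = fun j => M.τ (v j)
  N : G.N = Rd.NE B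
  Ca : G.Ca = Set.range M.τ
  ray : G.ray = Rd.ray
  τ : G.τ = Rd.τ
  s : G.s = M.gs
  U : G.U = U
  c_ge : 1 ≤ c
  Y0 : G.Y0 = M.gY c
  χ : G.χ = fun j => (X j).ρ
  D : G.D = fun j => (X j).D
  p : G.p = fun j => en (Rd.b j)

/-- `U_merge` with constant `C` -/
def FUm (v : J → Fin k → ℤ) (C : ℝ) : Prop :=
  ∀ i μ r, 0 ≤ μ → 0 ≤ r → ∀ x ∈ U (some i) μ r, ∀ m : ℕ,
    μ + C * r ≤ m * gb Rd i (M.θ (M.τ (v i))) →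
    (M.l (((M.τ (v i)) ^ m)⁻¹ * M.NR.subtype x * (M.τ (v i)) ^ m) : ℝ) ≤ erf C m

/-- `D_vol` with constant `C` -/
def FDv (X : ∀ j, M.CrossS (Rd.b j)) (C : ℝ) : Prop :=
  ∀ (j : J) (ρ : Option J → ℝ), (∀ j, 0 ≤ ρ j) → ∀ (r : ℝ) (d : ℂ), 0 ≤ r →
    M.nu {n | n ∈ Rd.NE B ρ ∧ ‖(X j).D (M.NR.subtype n) - d‖ ≤ Real.exp r} ≤
      ENNReal.ofReal (Real.exp (C - (ρ (some j) - r) / C)) * M.nu (Rd.NE B ρ)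

/-- `H_sh` with constant `C` -/
def FHs (H : Option J → (Option J → ℝ) → ℝ → ℝ) (C : ℝ) : Prop :=
  ∀ o (ρ ρ' : Option J → ℝ) (l r : ℝ), (∀ j, 0 ≤ ρ j) → (∀ j, 0 ≤ ρ' j) → 0 ≤ l → 0 ≤ r →
    (∀ j, |ρ' j - ρ j| ≤ r) → H o ρ' l ≤ H o ρ l + C * (1 + r)

/-- `H_grow` with constant `C` -/
def FHg (H : Option J → (Option J → ℝ) → ℝ → ℝ) (C : ℝ) : Prop :=
  ∀ i (ρ : Option J → ℝ) (l l' : ℝ), (∀ j, 0 ≤ ρ j) → 0 ≤ l' → l' ≤ l →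
    H (some i) ρ l' + (l - l') / C - C ≤ H (some i) ρ l

/-- `H_ext` with constant `C` -/
def FHe (H : Option J → (Option J → ℝ) → ℝ → ℝ) (δ0 C : ℝ) : Prop :=
  ∀ (i : J) (x : ℝ) (ρ ρ' : Option J → ℝ) (l : ℝ),
    (∀ j, |ρ (some j) - x * en (Rd.b j)| ≤ δ0 * x) → (∀ j, |ρ' (some j) - x * en (Rd.b j)| ≤ δ0 * x) →
    0 ≤ ρ none → ρ none ≤ δ0 * x → ρ' none = ρ none → ρ' (some i) = ρ (some i) → 0 ≤ l →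
    l ≤ δ0 * x → H (some i) ρ l ≤ H (some i) ρ' l + C

/-- `cov` with constant `C` -/
def Fcov (H : Option J → (Option J → ℝ) → ℝ → ℝ) (C : ℝ) : Prop :=
  ∀ (o : Option J) (ρ : Option J → ℝ) (l : ℝ), 0 ≤ ρ none → 0 ≤ l →
    (∀ j : J, C * (l + 1) ≤ ρ (some j)) →
    ∃ F : Finset M.NR, (F.card : ℝ) ≤ Real.exp (H o ρ l + C) ∧
      ∀ y ∈ Rd.NE B (bump ρ o l (C * (l + 1))), ∃ z ∈ F, ∃ n ∈ Rd.NE B (sh ρ C), y = n * z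

/-- `sep` with constant `C` -/
def Fsep (H : Option J → (Option J → ℝ) → ℝ → ℝ) (C : ℝ) : Prop :=
  ∀ (o : Option J) (ρ : Option J → ℝ) (l C1 : ℝ), (∀ j, 0 ≤ ρ j) → 0 ≤ l → 0 ≤ C1 →
    ∃ X : Finset M.NR, (∀ x ∈ X, x ∈ U o (ρ o + l) (ρ none)) ∧
      Real.exp (H o ρ l - C * (1 + C1)) ≤ X.card ∧
      ∀ x ∈ X, ∀ y ∈ X, x ≠ y → ∀ n ∈ Rd.NE B (sh ρ C1), ∀ n' ∈ Rd.NE B (sh ρ C1), n * x ≠ n' * y

/-- path containment -/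
def FPC : Prop := ∀ A : ℝ, ∃ K : ℝ, 0 ≤ K ∧ ∀ (m : ℕ) (w : ℕ → S) (ρ : Option J → ℝ),
    (∀ j, 0 ≤ ρ j) → (∀ i < m, (M.l ((w i)⁻¹ * w (i + 1)) : ℝ) ≤ A) →
    (∀ i ≤ m, ∀ j : J, gb Rd j (M.θ ((w 0)⁻¹ * w i)) ≤ ρ (some j)) →
    ∃ n ∈ Rd.NE B (sh ρ (K * (1 + Real.log (1 + m)))), ∃ κ ∈ Set.range M.τ,
      (w 0)⁻¹ * w m = M.NR.subtype n * κ

/-- eventually in the constant -/
abbrev Ev (P : ℝ → Prop) : Prop := ∃ C0 : ℝ, 0 ≤ C0 ∧ ∀ C : ℝ, C0 ≤ C → P C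

theorem Ev.and {P Q : ℝ → Prop} (h1 : Ev P) (h2 : Ev Q) : Ev fun C => P C ∧ Q C := by
  obtain ⟨a, ha, h1⟩ := h1
  obtain ⟨b, hb, h2⟩ := h2
  exact ⟨max a b, le_max_of_le_left ha, fun C hC =>
    ⟨h1 C ((le_max_left _ _).trans hC), h2 C ((le_max_right _ _).trans hC)⟩⟩

/-- the fields of `Geo` which depend on the constant -/
structure GPre (X : ∀ j, M.CrossS (Rd.b j)) (v : J → Fin k → ℤ) (c : ℝ)
    (H : Option J → (Option J → ℝ) → ℝ → ℝ) (C : ℝ) : Prop where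
  um : FUm Rd U v C
  dv : FDv Rd B X C
  hs : FHs H C
  hg : FHg H C
  cov : Fcov Rd B H C
  sep : Fsep Rd B U H C
  mul : ∀ ρ : Option J → ℝ, ∀ x ∈ Rd.NE B ρ, ∀ y ∈ Rd.NE B ρ, x * y ∈ Rd.NE B (sh ρ C)
  dbl : ∀ ρ : Option J → ℝ, ∀ r : ℝ, 0 ≤ r → M.nu (Rd.NE B (sh ρ r)) ≤
      ENNReal.ofReal (Real.exp (C * (1 + r))) * M.nu (Rd.NE B ρ)
  len : ∀ (e : M.NR) (r : ℝ), (M.l (M.NR.subtype e) : ℝ) ≤ r →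
    e ∈ Rd.NE B (rn (C * (r + 1)) (erf C r))
  cjN : ∀ (g : S) (r : ℝ), (M.l g : ℝ) ≤ r → ∀ ρ : Option J → ℝ, (∀ j, 0 ≤ ρ j) →
    ∀ n ∈ Rd.NE B ρ, M.cj g n ∈ Rd.NE B (sh2 ρ (C * (r + 1)) (erf C r))
  cjCa : ∀ κ ∈ Set.range M.τ, ∀ ρ ρ' : Option J → ℝ,
    (∀ j, ρ j + ob (gb Rd) j (M.θ κ) + erf C ‖M.θ κ‖ ≤ ρ' j) →
    ∀ n ∈ Rd.NE B ρ, M.cj κ n ∈ Rd.NE B ρ'
  conj : ∀ (ρ : Option J → ℝ) (lam : ℝ), 0 ≤ lam → ∀ g ∈ Rd.NE B (sh ρ lam),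
    ∀ (a : M.ι) (x : ℝ), |x| ≤ 1 →
      g * ls Rd.ray Rd.τ M.gs (sh ρ (-(C * (lam + 1)))) a x * g⁻¹ ∈ Rd.NE B ρ
  Cal : ∀ κ ∈ Set.range M.τ, (M.l κ : ℝ) ≤ C * (‖M.θ κ‖ + 1)
  Caf : ∀ r : ℝ, 0 ≤ r → ∃ F : Finset S, (F.card : ℝ) ≤ Real.exp (erf C r) ∧
    (∀ κ ∈ F, κ ∈ Set.range M.τ) ∧ ∀ κ ∈ Set.range M.τ, ‖M.θ κ‖ ≤ r → κ ∈ F
  ble : ∀ (j : J) (v : Z1.Ht k), |gb Rd j v| ≤ C * ‖v‖
  bsp : ∀ (v : Z1.Ht k) (r : ℝ), 0 ≤ r → (∀ j : J, |gb Rd j v| ≤ r) → ‖v‖ ≤ C * r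
  Dle : ∀ (j : J) (g : S), ‖(X j).D g‖ ≤ C * Real.exp (C * M.l g)
  tle : ∀ j, (M.l (M.τ (v j)) : ℝ) ≤ C
  yp : ∀ r : ℝ, 0 ≤ r → ∀ y ∈ M.gY c r, ∃ (m : ℕ) (p : ℕ → M.NR),
    (m : ℝ) ≤ Real.exp (C * (r + 1)) ∧ p 0 = 1 ∧ p m = y ∧ (∀ i, p i ∈ M.gY c r) ∧
      ∀ i, (M.l (M.NR.subtype ((p i)⁻¹ * p (i + 1))) : ℝ) ≤ C
  yn : ∀ r : ℝ, 0 ≤ r → ∃ F : Finset M.NR, (F.card : ℝ) ≤ Real.exp (C * (r + 1)) ∧
    (∀ y ∈ F, y ∈ M.gY c r) ∧ ∀ y ∈ M.gY c r, ∃ y' ∈ F, (M.l (M.NR.subtype (y'⁻¹ * y)) : ℝ) ≤ C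
  BC : B.C ≤ C
  C0 : M.C0 ≤ C

/-- the windows -/
structure GWin (v : J → Fin k → ℤ) (H : Option J → (Option J → ℝ) → ℝ → ℝ) (δ0 c1 C : ℝ) :
    Prop where
  he : FHe Rd H δ0 C
  δ0_pos : 0 < δ0
  δ0_le : δ0 ≤ 1
  c1_pos : 0 < c1
  t_pos : ∀ j, 0 < gb Rd j (M.θ (M.τ (v j)))
  p_lb : ∀ j, c1 + δ0 ≤ en (Rd.b j)
  p_ub : ∀ j, en (Rd.b j) + δ0 ≤ C
  dir : ∀ i j, j ≠ i → ∀ (x : ℝ) (ρ : Option J → ℝ), 0 ≤ x →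
    (∀ j, |ρ (some j) - x * en (Rd.b j)| ≤ δ0 * x) → ∀ m : ℕ,
    m * gb Rd i (M.θ (M.τ (v i))) ≤ ρ (some i) + δ0 * x →
    m * gb Rd j (M.θ (M.τ (v i))) ≤ ρ (some j) - c1 * x

variable {Rd B U}

theorem GPre.one_le {X : ∀ j, M.CrossS (Rd.b j)} {v : J → Fin k → ℤ} {c : ℝ}
    {H : Option J → (Option J → ℝ) → ℝ → ℝ} {C : ℝ} (P : GPre Rd B U X v c H C) : 1 ≤ C :=
  M.one_le_C0.trans P.C0

/-- the instance -/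
noncomputable def GPre.geo (hUN : ∀ o μ r, U o μ r ⊆ Rd.NE B (exto o μ r))
    (hUls : ∀ (ρ : Option J → ℝ) (a : M.ι) (x : ℝ), Rd.ray a ≠ none → |x| ≤ 1 →
      ls Rd.ray Rd.τ M.gs ρ a x ∈ U (Rd.ray a) (ρ (Rd.ray a)) (ρ none)) {X : ∀ j, M.CrossS (Rd.b j)}
    (hPC : FPC Rd B) {v : J → Fin k → ℤ} {c : ℝ} (hc1 : 1 ≤ c)
    (hYU : ∀ μ r, 0 ≤ μ → U none μ r ⊆ M.gY c μ)
    {w : J → ℝ} (hw1 : ∀ j, 0 < w j) (hw2 : ∀ v : Z1.Ht k, ∑ j, w j * gb Rd j v = 0)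
    {H : Option J → (Option J → ℝ) → ℝ → ℝ} {C : ℝ} (P : GPre Rd B U X v c H C)
    {δ0 c1 : ℝ} (W : GWin Rd v H δ0 c1 C) : Geo S M.NR (Z1.Ht k) J M.ι where
  C := C
  one_le_C := P.one_le
  er := erf C
  er_ge := erf_ge (zero_le_one.trans P.one_le)
  er_mono := erf_mono (zero_le_one.trans P.one_le)
  er_sub := erf_sub (zero_le_one.trans P.one_le)
  inc := M.NR.subtype
  inc_inj := Subtype.val_injective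
  l := fun g => (M.l g : ℝ)
  l_nonneg := fun g => Nat.cast_nonneg _
  l_one := by
    have := M.len.one
    exact_mod_cast this
  l_mul := fun g h => by exact_mod_cast M.len.mul g h
  l_inv := fun g => by rw [M.len.inv]
  l_path := fun g => by
    obtain ⟨p, q1, q2, q3⟩ := M.gl_path g
    exact ⟨p, q1, q2, fun i => (q3 i).trans P.one_le⟩
  θ := M.θ
  θ_mul := M.θ_mul
  θ_inc := M.gθ_inc
  θ_le := fun g => (M.θ_le g).trans (mul_le_mul_of_nonneg_right P.C0 (Nat.cast_nonneg _))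
  b := gb Rd
  b_le := P.ble
  b_span := P.bsp
  w := w
  w_pos := hw1
  w_sum := hw2
  t := fun j => M.τ (v j)
  t_le := P.tle
  t_pos := W.t_pos
  cj := M.cj
  inc_cj := M.inc_cj
  ν := M.nu
  ν_mm := M.nu_mm
  ν_mi := M.nu_mi
  ν_left := M.nu_left
  ν_right := M.nu_right
  ν_inv := M.nu_inv
  ν_sf := M.nu_sf
  cj_mp := M.cj_mp
  N := Rd.NE B
  N_meas := Rd.NE_meas B
  N_mono := Rd.NE_mono B
  N_one := fun ρ _ => Rd.NE_one B ρ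
  N_mul := fun ρ _ => P.mul ρ
  N_inv := fun ρ _ => Rd.NE_inv B (zero_le_one.trans P.one_le) ρ
  ν_N_pos := fun ρ _ => Rd.nu_NE_pos B ρ
  ν_N_top := fun ρ => Rd.nu_NE_top B ρ
  ν_dbl := fun ρ _ => P.dbl ρ
  N_bdd := Rd.NE_bdd B
  len_N := P.len
  cj_N := P.cjN
  Ca := Set.range M.τ
  Ca_len := P.Cal
  Ca_fin := P.Caf
  cj_Ca := fun κ hκ ρ ρ' _ _ => P.cjCa κ hκ ρ ρ'
  PC := hPC
  ray := Rd.ray
  τ := Rd.τ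
  τ_pos := Rd.τ_pos
  s := M.gs
  s_meas := M.gs_meas
  s_zero := M.gs_zero
  cl := M.cls
  rel := M.gs_rel
  N_ls := fun ρ _ => Rd.NE_ls B ρ
  cg := B.m
  N_gen := fun ρ _ => Rd.NE_gen B P.BC ρ
  conj := fun ρ lam hlam _ _ g hg a x _ hx => P.conj ρ lam hlam g hg a x hx
  U := U
  U_N := fun o μ r _ _ => hUN o μ r
  U_ls := fun ρ a x _ ha hx => hUls ρ a x ha hx
  U_merge := P.um
  Y0 := M.gY c
  Y_mono := M.gY_mono' (zero_le_one.trans hc1)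
  Y_inv := M.gY_inv c
  Y_U := fun μ r hμ => hYU μ r hμ
  Y_ls := fun ρ a x hρ ha hx => M.gY_ls Rd hc1 ρ a x hρ ha hx
  Y_path := P.yp
  Y_net := P.yn
  χ := fun j => (X j).ρ
  D := fun j => (X j).D
  χ_norm := χ_norm X
  χ_mul := χ_mul X
  D_mul := D_mul X
  χ_inc := χ_inc X
  D_le := P.Dle
  D_vol := P.dv
  p := fun j => en (Rd.b j)
  δ0 := δ0
  δ0_pos := W.δ0_pos
  δ0_le := W.δ0_le
  c1 := c1
  c1_pos := W.c1_pos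
  p_lb := W.p_lb
  p_ub := W.p_ub
  dir := W.dir
  H := H
  H_sh := P.hs
  H_grow := P.hg
  H_ext := W.he
  cov := fun o x ρ l _ q2 _ q4 _ q6 => P.cov o ρ l q2 q4 q6
  sep := P.sep

theorem GPre.dict (hUN : ∀ o μ r, U o μ r ⊆ Rd.NE B (exto o μ r))
    (hUls : ∀ (ρ : Option J → ℝ) (a : M.ι) (x : ℝ), Rd.ray a ≠ none → |x| ≤ 1 →
      ls Rd.ray Rd.τ M.gs ρ a x ∈ U (Rd.ray a) (ρ (Rd.ray a)) (ρ none)) {X : ∀ j, M.CrossS (Rd.b j)}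
    (hPC : FPC Rd B) {v : J → Fin k → ℤ} {c : ℝ} (hc1 : 1 ≤ c)
    (hYU : ∀ μ r, 0 ≤ μ → U none μ r ⊆ M.gY c μ)
    {w : J → ℝ} (hw1 : ∀ j, 0 < w j) (hw2 : ∀ v : Z1.Ht k, ∑ j, w j * gb Rd j v = 0)
    {H : Option J → (Option J → ℝ) → ℝ → ℝ} {C : ℝ} (P : GPre Rd B U X v c H C)
    {δ0 c1 : ℝ} (W : GWin Rd v H δ0 c1 C) :
    GDict Rd B U X v c (P.geo hUN hUls hPC hc1 hYU hw1 hw2 W) :=
  ⟨rfl, rfl, rfl, rfl, rfl, rfl, rfl, rfl, rfl, rfl, rfl, rfl, rfl, rfl, hc1, rfl, rfl, rfl, rfl⟩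

/-- the constant exists -/
theorem exists_gpre (hcj : Ev fun C => ∀ (g : S) (r : ℝ), (M.l g : ℝ) ≤ r → ∀ ρ : Option J → ℝ, (∀ j, 0 ≤ ρ j) →
      ∀ n ∈ Rd.NE B ρ, M.cj g n ∈ Rd.NE B (sh2 ρ (C * (r + 1)) (erf C r)))
    (hcjCa : Ev fun C => ∀ κ ∈ Set.range M.τ, ∀ ρ ρ' : Option J → ℝ,
      (∀ j, ρ j + ob (gb Rd) j (M.θ κ) + erf C ‖M.θ κ‖ ≤ ρ' j) →
      ∀ n ∈ Rd.NE B ρ, M.cj κ n ∈ Rd.NE B ρ')
    (hconj : Ev fun C => ∀ (ρ : Option J → ℝ) (lam : ℝ), 0 ≤ lam → ∀ g ∈ Rd.NE B (sh ρ lam),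
      ∀ (a : M.ι) (x : ℝ), |x| ≤ 1 →
        g * ls Rd.ray Rd.τ M.gs (sh ρ (-(C * (lam + 1)))) a x * g⁻¹ ∈ Rd.NE B ρ)
    (X : ∀ j, M.CrossS (Rd.b j))
    {v : J → Fin k → ℤ} {c : ℝ} (hc1 : 1 ≤ c) (hv : Ev fun C => ∀ j, (M.l (M.τ (v j)) : ℝ) ≤ C)
    (hUm : Ev (FUm Rd U v)) (hDv : Ev (FDv Rd B X))
    (H : Option J → (Option J → ℝ) → ℝ → ℝ) (hHs : Ev (FHs H)) (hHg : Ev (FHg H))
    (hcov : Ev (Fcov Rd B H)) (hsep : Ev (Fsep Rd B U H)) : Ev (GPre Rd B U X v c H) := by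
  obtain ⟨Cp, hCp1, hYp⟩ := M.gY_path hc1
  obtain ⟨Cn, hCn1, hYn⟩ := M.gY_net hc1
  have hBC : Ev fun C => B.C ≤ C := ⟨B.C, zero_le_one.trans B.one_le, fun _ h => h⟩
  have hC0 : Ev fun C => M.C0 ≤ C := ⟨M.C0, zero_le_one.trans M.one_le_C0, fun _ h => h⟩
  have hp : Ev fun C => Cp ≤ C := ⟨Cp, zero_le_one.trans hCp1, fun _ h => h⟩
  have hn : Ev fun C => Cn ≤ C := ⟨Cn, zero_le_one.trans hCn1, fun _ h => h⟩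
  have A1 := ((hUm.and hDv).and (hHs.and hHg)).and ((hcov.and hsep).and (hBC.and hC0))
  have A2 := Ev.and (Ev.and (Rd.NE_mul B) (Rd.nu_NE_dbl B)) (Ev.and (Rd.len_NE B) hcj)
  have A3 := Ev.and (Ev.and hcjCa hconj)
    (Ev.and (H615.Ca_len M) (H615.Ca_fin M))
  have A4 := Ev.and (Ev.and (exists_b_le Rd) (exists_b_span Rd)) (Ev.and (D_le X) (hv.and (hp.and hn)))
  obtain ⟨C0, h0, H1⟩ := Ev.and (A1.and A2) (A3.and A4)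
  refine ⟨C0, h0, fun C hC => ?_⟩
  obtain ⟨⟨⟨⟨⟨q1, q2⟩, q3, q4⟩, ⟨q5, q6⟩, q7, q8⟩, ⟨q9, q10⟩, q11, q12⟩,
    ⟨⟨q13, q14⟩, q15, q16⟩, ⟨q17, q18⟩, q19, q20, q21, q22⟩ := H1 C hC
  refine ⟨q1, q2, q3, q4, q5, q6, q9, q10, q11, q12, q13, q14, q15, q16, q17, q18, q19, q20,
    ?_, ?_, q7, q8⟩
  · intro r hr y hy
    obtain ⟨m, p, q1, q2, q3, q4, q5⟩ := hYp r hr y hy
    refine ⟨m, p, q1.trans (Real.exp_le_exp.2 ?_), q2, q3, q4, fun i => (q5 i).trans q21⟩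
    exact mul_le_mul_of_nonneg_right q21 (by linarith)
  · intro r hr
    obtain ⟨F, q1, q2, q3⟩ := hYn r hr
    refine ⟨F, q1.trans (Real.exp_le_exp.2 ?_), q2, fun y hy => ?_⟩
    · exact mul_le_mul_of_nonneg_right q22 (by linarith)
    · obtain ⟨y', q4, q5⟩ := q3 y hy
      exact ⟨y', q4, q5.trans q22⟩

/-- **all the fields of `Geo`** -/
theorem exists_geo_of (hUN : ∀ o μ r, U o μ r ⊆ Rd.NE B (exto o μ r))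
    (hUls : ∀ (ρ : Option J → ℝ) (a : M.ι) (x : ℝ), Rd.ray a ≠ none → |x| ≤ 1 →
      ls Rd.ray Rd.τ M.gs ρ a x ∈ U (Rd.ray a) (ρ (Rd.ray a)) (ρ none))
    (hcj : Ev fun C => ∀ (g : S) (r : ℝ), (M.l g : ℝ) ≤ r → ∀ ρ : Option J → ℝ, (∀ j, 0 ≤ ρ j) →
      ∀ n ∈ Rd.NE B ρ, M.cj g n ∈ Rd.NE B (sh2 ρ (C * (r + 1)) (erf C r)))
    (hcjCa : Ev fun C => ∀ κ ∈ Set.range M.τ, ∀ ρ ρ' : Option J → ℝ,
      (∀ j, ρ j + ob (gb Rd) j (M.θ κ) + erf C ‖M.θ κ‖ ≤ ρ' j) →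
      ∀ n ∈ Rd.NE B ρ, M.cj κ n ∈ Rd.NE B ρ')
    (hconj : Ev fun C => ∀ (ρ : Option J → ℝ) (lam : ℝ), 0 ≤ lam → ∀ g ∈ Rd.NE B (sh ρ lam),
      ∀ (a : M.ι) (x : ℝ), |x| ≤ 1 →
        g * ls Rd.ray Rd.τ M.gs (sh ρ (-(C * (lam + 1)))) a x * g⁻¹ ∈ Rd.NE B ρ)
    (X : ∀ j, M.CrossS (Rd.b j))
    (hPC : FPC Rd B)
    (hYU : Ev fun c => ∀ μ r, 0 ≤ μ → U none μ r ⊆ M.gY c μ)
    (hUm : ∀ v, Ev (FUm Rd U v)) (hDv : Ev (FDv Rd B X))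
    (H : Option J → (Option J → ℝ) → ℝ → ℝ) (hHs : Ev (FHs H)) (hHg : Ev (FHg H))
    (hcov : Ev (Fcov Rd B H)) (hsep : Ev (Fsep Rd B U H))
    (hHe : ∃ δ₂ : ℝ, 0 < δ₂ ∧ ∀ δ : ℝ, 0 < δ → δ ≤ δ₂ → Ev (FHe Rd H δ)) :
    ∃ v c, ∀ δ : ℝ, 0 < δ → ∃ G : Geo S M.NR (Z1.Ht k) J M.ι,
      GDict Rd B U X v c G ∧ G.δ0 ≤ δ := by
  obtain ⟨c0, hc0, hYU⟩ := hYU
  have hc1 : 1 ≤ max c0 1 := le_max_right _ _
  obtain ⟨v, δ1, C01, hδ1, hδ11, hC01, ht1, ht2, ht3, ht4, ht5⟩ := exists_t Rd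
  obtain ⟨w, hw1, hw2⟩ := exists_w Rd
  obtain ⟨δ₂, hδ₂, hHe⟩ := hHe
  refine ⟨v, max c0 1, fun δ hδ => ?_⟩
  have hm0 : 0 < min δ (min δ1 δ₂) := lt_min hδ (lt_min hδ1 hδ₂)
  have hm1 : min δ (min δ1 δ₂) ≤ δ1 := (min_le_right _ _).trans (min_le_left _ _)
  obtain ⟨a, -, ha⟩ := exists_gpre hcj hcjCa hconj X (v := v) (c := max c0 1) hc1 ⟨C01, hC01, ht1⟩ (hUm v) hDv H
    hHs hHg hcov hsep
  obtain ⟨b, -, hb⟩ := hHe _ hm0 ((min_le_right _ _).trans (min_le_right _ _))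
  have P := ha (max (max a b) C01) ((le_max_left _ _).trans (le_max_left _ _))
  have W : GWin Rd v H (min δ (min δ1 δ₂)) δ1 (max (max a b) C01) :=
    ⟨hb _ ((le_max_right _ _).trans (le_max_left _ _)), hm0, hm1.trans hδ11, hδ1, ht2,
      ht3 _ _ hm1 le_rfl, ht4 _ (le_max_right _ _) _ hm1, ht5 _ _ hm0 hm1 hδ1 le_rfl⟩
  exact ⟨P.geo hUN hUls hPC hc1 (hYU _ (le_max_left _ _)) hw1 hw2 W, P.dict hUN hUls hPC hc1 _ hw1 hw2 W,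
    min_le_left _ _⟩

/-- 789's dictionary -/
theorem GDict.fits {X : ∀ j, M.CrossS (Rd.b j)} {v : J → Fin k → ℤ} {c : ℝ}
    {G : Geo S M.NR (Z1.Ht k) J M.ι} (hG : GDict Rd B U X v c G) : H789.Fits M G where
  θ := fun z => by rw [hG.θ]
  l := fun z => by rw [hG.l]
  inc := by rw [hG.inc]; exact measurable_subtype_coe

/-- 540's dictionary -/
theorem GDict.fitsI {X : ∀ j, M.CrossS (Rd.b j)} {v : J → Fin k → ℤ} {c : ℝ}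
    {G : Geo S M.NR (Z1.Ht k) J M.ι} (hG : GDict Rd B U X v c G) {δ : ℝ} (hδ : G.δ0 ≤ δ) :
    Z1.InB.FitsI B Rd G δ where
  θ := fun z => by rw [hG.θ]
  l := fun z => by rw [hG.l]
  inc := fun n => by rw [hG.inc]; rfl
  ν := hG.ν
  N := fun ρ => by rw [hG.N]
  b := fun j v => by rw [hG.b]; rfl
  t := ⟨v, fun j => by rw [hG.t]⟩
  p := fun j => by rw [hG.p]
  δ0 := hδ
  Y0 := by
    refine ⟨2 * c, fun r hr y hy => ?_⟩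
    rw [hG.Y0] at hy
    obtain ⟨u, hu, hn, he⟩ := hy
    exact ⟨u, hu, hn.trans (RModel.exp_bound hG.c_ge hr), he.symm⟩

end inst

end Vale.Agent.P188.H131
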