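import Vale.Agent.P188.H131.GeoNu
import Vale.Agent.P188.H615.GeoD
import Vale.Agent.P188.Z1.Fat
import Vale.Agent.P188.H532.Geo

/-!
# P188, route B: fields of `H532.Geo` over `RModel` : rays, letters, lengths

On top of 615's `RayD` (`ι = J`, `b`, `ray`, `τ`).
-/

set_option linter.all false

open MeasureTheory Set
open Agent.P188.H428 (IsLen)
open Vale.Agent.P188.H530 (hgt)
open Vale.Agent.P188.H329 (Rel)
open Vale.P188.H532 (ob)
open Vale.Agent.P188.Z1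

namespace Vale.Agent.P188.H131

section rays

variable {S : Type} [Group S] [MeasurableSpace S] {Γ : Type} [Group Γ]
  {V : Type} [AddCommGroup V] [Module ℝ V] {k : ℕ} {M : RModel S Γ V k} {J : Type}
  (Rd : H615.RayD M J)

/-- the functional of a ray -/
def gb (j : J) : Z1.Ht k →ₗ[ℝ] ℝ := ((Rd.b j : Z1.Ht k →L[ℝ] ℝ) : Z1.Ht k →ₗ[ℝ] ℝ)

@[simp] theorem gb_apply (j : J) (v : Z1.Ht k) : gb Rd j v = Rd.b j v := rfl

theorem wt_ob (a : M.ι) (v : Z1.Ht k) : M.wt a v = Rd.τ a * ob (gb Rd) (Rd.ray a) v := by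
  rcases h : Rd.ray a with - | j
  · rw [Rd.wt_none a h]
    simp [ob]
  · rw [Rd.wt_some a j h]
    rfl

theorem ray_none_iff (a : M.ι) : Rd.ray a = none ↔ M.wt a = 0 := by
  constructor
  · exact Rd.wt_none a
  · intro h
    rcases h1 : Rd.ray a with - | j
    · rfl
    · exfalso
      rw [Rd.wt_some a j h1] at h
      exact Rd.b_ne j ((smul_eq_zero.1 h).resolve_left (Rd.τ_pos a).ne')

theorem ray_some_iff (a : M.ι) (j : J) :
    Rd.ray a = some j ↔ ∃ t : ℝ, 0 < t ∧ M.wt a = t • Rd.b j := by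
  constructor
  · intro h
    exact ⟨Rd.τ a, Rd.τ_pos a, Rd.wt_some a j h⟩
  · rintro ⟨t, ht, e⟩
    rcases h : Rd.ray a with - | j'
    · exfalso
      rw [Rd.wt_none a h] at e
      exact Rd.b_ne j ((smul_eq_zero.1 e.symm).resolve_left ht.ne')
    · congr 1
      refine Rd.uniq j' j ((Rd.τ a)⁻¹ * t) (mul_pos (inv_pos.2 (Rd.τ_pos a)) ht) ?_
      rw [mul_smul, ← e, Rd.wt_some a j' h, inv_smul_smul₀ (Rd.τ_pos a).ne']

/-- the class of a ray is the weight of a letter -/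
theorem exists_letter (j : J) : ∃ a, M.wt a = Rd.b j ∧ Rd.ray a = some j ∧ Rd.τ a = 1 := by
  obtain ⟨a, ha⟩ := M.wt_surj _ (Rd.mem j)
  have h1 : Rd.ray a = some j := (ray_some_iff Rd a j).2 ⟨1, one_pos, by rw [ha, one_smul]⟩
  refine ⟨a, ha, h1, ?_⟩
  obtain ⟨v, hv⟩ : ∃ v, Rd.b j v ≠ 0 := by
    by_contra hc
    push Not at hc
    exact Rd.b_ne j (by ext v; simp [hc])
  have h2 := wt_ob Rd a v
  rw [ha, h1] at h2
  have h3 : Rd.b j v = Rd.τ a * Rd.b j v := h2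
  have h4 : (1 - Rd.τ a) * Rd.b j v = 0 := by rw [sub_mul, one_mul]; linarith
  rcases mul_eq_zero.1 h4 with h | h
  · linarith
  · exact absurd h hv

variable [Fintype J]

theorem exists_b_le : ∃ C0 : ℝ, 0 ≤ C0 ∧ ∀ C : ℝ, C0 ≤ C → ∀ (j : J) (v : Z1.Ht k),
    |gb Rd j v| ≤ C * ‖v‖ := by
  refine ⟨∑ j : J, ‖Rd.b j‖, Finset.sum_nonneg fun _ _ => norm_nonneg _, fun C hC j v => ?_⟩
  have h1 : ‖Rd.b j‖ ≤ ∑ j : J, ‖Rd.b j‖ :=
    Finset.single_le_sum (f := fun j : J => ‖Rd.b j‖) (fun _ _ => norm_nonneg _)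
      (Finset.mem_univ j)
  calc |gb Rd j v| = ‖Rd.b j v‖ := rfl
    _ ≤ ‖Rd.b j‖ * ‖v‖ := ContinuousLinearMap.le_opNorm _ _
    _ ≤ _ := mul_le_mul_of_nonneg_right (h1.trans hC) (norm_nonneg _)

theorem exists_b_span : ∃ C0 : ℝ, 0 ≤ C0 ∧ ∀ C : ℝ, C0 ≤ C → ∀ (v : Z1.Ht k) (r : ℝ), 0 ≤ r →
    (∀ j : J, |gb Rd j v| ≤ r) → ‖v‖ ≤ C * r := by
  let f : Z1.Ht k →ₗ[ℝ] (J → ℝ) := LinearMap.pi fun j => gb Rd j
  have hf : LinearMap.ker f = ⊥ := by
    rw [LinearMap.ker_eq_bot']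
    intro v hv
    refine M.Φ_span v fun b hb => ?_
    obtain ⟨j, t, ht, e⟩ := Rd.surj b hb
    have h1 : gb Rd j v = 0 := congrFun hv j
    have h2 : Rd.b j v = 0 := h1
    rw [e]
    simp [h2]
  obtain ⟨K, hK, h⟩ := f.exists_antilipschitzWith hf
  refine ⟨K, K.2, fun C hC v r hr hv => ?_⟩
  have h1 := h.le_mul_dist v 0
  rw [dist_zero_right, map_zero, dist_zero_right] at h1
  refine (h1.trans (mul_le_mul_of_nonneg_left ?_ K.2)).trans
    (mul_le_mul_of_nonneg_right hC hr)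
  exact (pi_norm_le_iff_of_nonneg hr).2 fun j => hv j

theorem exists_w : ∃ w : J → ℝ, (∀ j, 0 < w j) ∧ ∀ v : Z1.Ht k, ∑ j, w j * gb Rd j v = 0 := by
  classical
  have h1 : ∀ b : M.Φ, ∃ (j : J) (t : ℝ), 0 < t ∧ (b : Z1.Ht k →L[ℝ] ℝ) = t • Rd.b j := by
    intro b
    exact Rd.surj b b.2
  choose r t ht e using h1
  refine ⟨fun j => ∑ b : M.Φ with r b = j, M.mult b * t b, fun j => ?_, fun v => ?_⟩
  · refine Finset.sum_pos (fun b _ => mul_pos (M.mult_pos b b.2) (ht b)) ?_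
    refine ⟨⟨Rd.b j, Rd.mem j⟩, ?_⟩
    rw [Finset.mem_filter]
    refine ⟨Finset.mem_univ _, ?_⟩
    have h2 := e ⟨Rd.b j, Rd.mem j⟩
    exact (Rd.uniq j _ _ (ht _) h2).symm
  · have h2 : ∀ j : J, (∑ b : M.Φ with r b = j, M.mult b * t b) * gb Rd j v =
        ∑ b : M.Φ with r b = j, M.mult b * (b : Z1.Ht k →L[ℝ] ℝ) v := by
      intro j
      rw [Finset.sum_mul]
      refine Finset.sum_congr rfl fun b hb => ?_
      rw [Finset.mem_filter] at hb
      rw [e b, hb.2]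
      simp [mul_assoc]
    simp only [h2]
    rw [Finset.sum_fiberwise (s := Finset.univ) (g := r)
      (f := fun b : M.Φ => M.mult b * (b : Z1.Ht k →L[ℝ] ℝ) v)]
    have h3 := M.unimod
    rw [← Finset.sum_coe_sort] at h3
    have h4 := congrArg (fun L : Z1.Ht k →L[ℝ] ℝ => L v) h3
    simpa [ContinuousLinearMap.sum_apply] using h4

end rays

end Vale.Agent.P188.H131

namespace Vale.Agent.P188.Z1.RModel

variable {S : Type} [Group S] [MeasurableSpace S] {Γ : Type} [Group Γ]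
  {V : Type} [AddCommGroup V] [Module ℝ V] {k : ℕ} (M : RModel S Γ V k)

/-! ### lengths and heights -/

theorem gl_path (g : S) : ∃ p : ℕ → S, p 0 = 1 ∧ p ⌈(M.l g : ℝ)⌉₊ = g ∧
    ∀ i, (M.l ((p i)⁻¹ * p (i + 1)) : ℝ) ≤ 1 := by
  obtain ⟨p, h1, h2, h3⟩ := M.l_path g
  refine ⟨p, h1, by rwa [Nat.ceil_natCast], fun i => ?_⟩
  exact_mod_cast h3 i

theorem gθ_inc (n : M.NR) : M.θ (M.NR.subtype n) = 0 := by
  have h : M.η (n : S) = 1 := M.mem_NR.1 n.2
  funext i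
  show hgt M.η (n : S) i = 0
  simp [hgt, h]

/-! ### letters -/

/-- the letters in `N_R` -/
noncomputable def gs (a : M.ι) (x : ℝ) : M.NR := ⟨M.ex (x • M.X a), M.mem_NR.2 (M.η_ex _)⟩

@[simp] theorem coe_gs (a : M.ι) (x : ℝ) : (M.gs a x : S) = M.ex (x • M.X a) := rfl

theorem gs_meas (a : M.ι) : Measurable (M.gs a) := by
  refine Measurable.subtype_mk ?_
  have h := (M.ex_meas (M.X a)).comp (measurable_const.prodMk measurable_id :
    Measurable fun x : ℝ => ((1 : S), x))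
  simpa [Function.comp_def] using h

theorem gs_zero (a : M.ι) : M.gs a 0 = 1 := by
  apply Subtype.ext
  rw [coe_gs, zero_smul, M.ex_zero]
  rfl

theorem gs_rel : Rel M.ι M.cls M.gs := by
  have h := M.rel fun _ => 1
  simp only [one_mul] at h
  exact Rel.of_map M.NR.subtype (Subtype.val_injective) h

end Vale.Agent.P188.Z1.RModel
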