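import Vale.Agent.P188.H131.Haar1
import Vale.Agent.P188.H796.Lh

/-!
Haar measure on the real hull `R.NR` of `N`: unimodular, invariant under automorphisms preserving
`N`.
-/

open MeasureTheory MeasureTheory.Measure Topology Set Pointwise Vale.Agent.P188.H796

set_option linter.unusedSectionVars false

universe u v

namespace Vale.Agent.P188.H131

variable {N : Type u} [Group N] {d n : ℕ} {D : MB N d n} {A : Type v} [NormedRing A]
  [NormedAlgebra ℝ A] [FiniteDimensional ℝ A] (R : RD D A)

instance : MeasurableSpace R.NR := inferInstanceAs (MeasurableSpace (Fin d → ℝ))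
instance : BorelSpace R.NR := inferInstanceAs (BorelSpace (Fin d → ℝ))

theorem isCompact_closure_cube : ∃ C : Set R.NR, IsCompact C ∧ R.cube ⊆ C := by
  have h : IsCompact (Set.Icc (0 : Fin d → ℝ) 1) := isCompact_Icc
  refine ⟨(Set.Icc (0 : Fin d → ℝ) 1 : Set (Fin d → ℝ)), h, ?_⟩
  intro s hs
  exact ⟨fun j => (hs j).1, fun j => (hs j).2.le⟩

theorem lat_range : Lat R.ι.range where
  disc := by
    refine ⟨{s : R.NR | ∀ i, |s i| < 1}, ?_, ?_⟩
    · have : IsOpen {s : Fin d → ℝ | ∀ i, |s i| < 1} := by
        simp only [ofPred_forall]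
        exact isOpen_iInter_of_finite fun i =>
          isOpen_lt (continuous_abs.comp (continuous_apply i)) continuous_const
      refine IsOpen.mem_nhds this ?_
      intro i
      show |(0 : ℝ)| < 1
      simp
    · rintro _ ⟨y, rfl⟩ hy
      have h0 : ∀ i, D.c i y = 0 := by
        intro i
        have h1 : |((D.c i y : ℤ) : ℝ)| < 1 := hy i
        have h2 : |D.c i y| < 1 := by exact_mod_cast h1
        exact Int.abs_lt_one_iff.mp h2
      funext i
      show ((D.c i y : ℤ) : ℝ) = 0
      rw [h0 i]; simp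
  coco := by
    obtain ⟨C, hC, hC2⟩ := isCompact_closure_cube R
    refine ⟨C⁻¹, hC.inv, fun x => ?_⟩
    obtain ⟨y, c, hc, rfl⟩ := R.exists_cube_left x
    refine ⟨(R.ι y)⁻¹, inv_mem ⟨y, rfl⟩, ?_⟩
    rw [inv_mul_cancel_left]
    exact hC2 hc

instance [Countable N] : Countable R.ι.range := by
  have : Function.Surjective (R.ι.rangeRestrict) := MonoidHom.rangeRestrict_surjective _
  exact this.countable

theorem NR_right_inv [Countable N] (μ : Measure R.NR) [IsHaarMeasure μ] : IsMulRightInvariant μ :=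
  right_inv (lat_range R) μ

/-- `|det| = 1` for automorphisms coming from automorphisms of `N` -/
theorem NR_aut [Countable N] (μ : Measure R.NR) [IsHaarMeasure μ] (α : R.NR ≃* R.NR)
    (hα : Continuous α) (hα' : Continuous α.symm) (θ : N ≃* N) (h : ∀ y, α (R.ι y) = R.ι (θ y)) :
    MeasurePreserving α μ μ := by
  refine measurePreserving_aut (lat_range R) μ α hα hα' fun x => ⟨?_, ?_⟩
  · rintro ⟨y, hy⟩
    refine ⟨θ.symm y, ?_⟩
    apply α.injective
    rw [h, ← hy, MulEquiv.apply_symm_apply]
  · rintro ⟨y, rfl⟩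
    exact ⟨θ y, (h y).symm⟩

end Vale.Agent.P188.H131
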