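import Mathlib

/-!
Triangular differentiable bijections of a finite dimensional space preserve Lebesgue measure.
-/

open MeasureTheory MeasureTheory.Measure Topology Set Filter
open scoped ENNReal

universe u v

namespace Vale.Agent.P188.H131

variable {V : Type u} [NormedAddCommGroup V] [NormedSpace ℝ V] [FiniteDimensional ℝ V]

/-- a unipotent map has determinant one -/
theorem det_eq_one {T : V →ₗ[ℝ] V} (F : ℕ → Submodule ℝ V) (h0 : F 0 = ⊤) {c : ℕ}
    (hc : F c = ⊥) (hF : ∀ i, ∀ u ∈ F i, T u - u ∈ F (i + 1)) : LinearMap.det T = 1 := by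
  set N : Module.End ℝ V := T - 1 with hN
  have h1 : ∀ k : ℕ, ∀ u, (N ^ k) u ∈ F k := by
    intro k
    induction k with
    | zero => intro u; rw [h0]; trivial
    | succ k ih =>
      intro u
      rw [pow_succ', Module.End.mul_apply]
      exact hF k _ (ih u)
  have hnil : IsNilpotent N := by
    refine ⟨c, ?_⟩
    ext u
    have := h1 c u
    rw [hc] at this
    simpa using this
  have hT : T = 1 + N := by rw [hN]; abel
  have hnil' : IsNilpotent (-N) := hnil.neg
  have h2 := hnil'.charpoly_eq_X_pow_finrank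
  have h3 : (LinearMap.charpoly (-N)).eval 1 = LinearMap.det (algebraMap ℝ (Module.End ℝ V) 1 - (-N)) := by
    rw [LinearMap.eval_charpoly]
  rw [h2] at h3
  rw [map_one, sub_neg_eq_add] at h3
  rw [hT, ← h3]
  simp

variable [MeasurableSpace V] [BorelSpace V]

theorem tri_mp (μ : Measure V) [μ.IsAddHaarMeasure] {f : V → V} (hd : Differentiable ℝ f)
    (hb : Function.Bijective f) (F : ℕ → Submodule ℝ V) (h0 : F 0 = ⊤) {c : ℕ} (hc : F c = ⊥)
    (hF : ∀ i x u, u ∈ F i → f (x + u) - f x - u ∈ F (i + 1)) : MeasurePreserving f μ μ := by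
  have hder : ∀ x, (fderiv ℝ f x).det = 1 := by
    intro x
    show LinearMap.det ((fderiv ℝ f x : V →L[ℝ] V) : V →ₗ[ℝ] V) = 1
    refine det_eq_one F h0 hc fun i u hu => ?_
    have h1 : HasFDerivAt f (fderiv ℝ f x) x := (hd x).hasFDerivAt
    have h2 : HasDerivAt (fun t : ℝ => f (x + t • u)) (fderiv ℝ f x u) 0 := by
      have h3 : HasDerivAt (fun t : ℝ => x + t • u) u 0 := by
        simpa using ((hasDerivAt_id (0 : ℝ)).smul_const u).const_add x
      have h4 : HasFDerivAt f (fderiv ℝ f x) ((fun t : ℝ => x + t • u) 0) := by simpa using h1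
      exact h4.comp_hasDerivAt (0 : ℝ) h3
    have h5 : HasDerivAt (fun t : ℝ => f (x + t • u) - f x - t • u) (fderiv ℝ f x u - u) 0 := by
      have := (h2.sub_const (f x)).fun_sub ((hasDerivAt_id (0 : ℝ)).smul_const u)
      simpa using this
    have h6 : Tendsto (fun t : ℝ => t⁻¹ • (f (x + t • u) - f x - t • u)) (𝓝[≠] 0)
        (𝓝 (fderiv ℝ f x u - u)) := by
      have := hasDerivAt_iff_tendsto_slope_zero.mp h5
      simpa using this
    have hcl : IsClosed (F (i + 1) : Set V) := (F (i + 1)).closed_of_finiteDimensional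
    refine hcl.mem_of_tendsto h6 ?_
    refine Eventually.of_forall fun t => ?_
    exact (F (i + 1)).smul_mem _ (hF i x (t • u) ((F i).smul_mem _ hu))
  refine ⟨hd.continuous.measurable, ?_⟩
  have h := map_withDensity_abs_det_fderiv_eq_addHaar μ (s := univ) (f := f)
    (f' := fun x => fderiv ℝ f x) MeasurableSet.univ.nullMeasurableSet
    (fun x _ => (hd x).hasFDerivAt.hasFDerivWithinAt) hb.1.injOn
  simp only [hder, abs_one, ENNReal.ofReal_one, restrict_univ, image_univ, hb.2.range_eq] at h
  rwa [show (fun _ : V => (1 : ℝ≥0∞)) = 1 from rfl, withDensity_one] at h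

end Vale.Agent.P188.H131
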