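import Vale.Agent.P188.H615.Gam
import Vale.Agent.P188.H131.Tri
import Vale.Agent.P188.H131.Haar2

/-!
Lebesgue measure on a Lie subalgebra `e` of `V` is transported by `Ex` to a bi-invariant measure
on the group `exp e`.
-/

open MeasureTheory MeasureTheory.Measure Topology Set Filter Vale.Agent.P188.H796
  Vale.Agent.P188.H615
open scoped ENNReal

set_option linter.unusedSectionVars false

universe u v

namespace Vale.Agent.P188.H131

section exlg

variable {A : Type v} [NormedRing A] [NormedAlgebra ℝ A]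

theorem differentiable_ex (m : ℕ) : Differentiable ℝ (fun v : A => ex m v) := by
  unfold ex
  fun_prop

theorem differentiable_lg (m : ℕ) : Differentiable ℝ (fun v : A => lg m v) := by
  unfold lg
  fun_prop

end exlg

variable {N : Type u} [Group N] {d n : ℕ} {D : MB N d n} {A : Type v} [NormedRing A]
  [NormedAlgebra ℝ A] [FiniteDimensional ℝ A] (R : RD D A)

section alg

variable {R} {e : Submodule ℝ R.V} (he : ∀ x ∈ e, ∀ y ∈ e, ⁅x, y⁆ ∈ e)

/-- left translation in logarithmic coordinates -/
noncomputable def LT (x : ExS R e he) (v : e) : e :=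
  ⟨R.Lo (x * R.Ex v), (ExS R e he).mul_mem x.2 (by rw [mem_ExS, R.Lo_Ex]; exact v.2)⟩

/-- right translation in logarithmic coordinates -/
noncomputable def RT (x : ExS R e he) (v : e) : e :=
  ⟨R.Lo (R.Ex v * x), (ExS R e he).mul_mem (by rw [mem_ExS, R.Lo_Ex]; exact v.2) x.2⟩

theorem coe_LT (x : ExS R e he) (v : e) : ((LT he x v : e) : R.V) = R.Lo (x * R.Ex v) := rfl

theorem coe_RT (x : ExS R e he) (v : e) : ((RT he x v : e) : R.V) = R.Lo (R.Ex v * x) := rfl

theorem Ex_LT (x : ExS R e he) (v : e) : R.Ex (LT he x v) = x * R.Ex v := by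
  rw [coe_LT, R.Ex_Lo]

theorem Ex_RT (x : ExS R e he) (v : e) : R.Ex (RT he x v) = R.Ex v * x := by
  rw [coe_RT, R.Ex_Lo]

theorem LT_mul (x y : ExS R e he) (v : e) : LT he (x * y) v = LT he x (LT he y v) := by
  apply Subtype.ext
  rw [coe_LT, coe_LT, Ex_LT, ← mul_assoc]; rfl

theorem LT_one (v : e) : LT he 1 v = v := by
  apply Subtype.ext
  rw [coe_LT, OneMemClass.coe_one, one_mul, R.Lo_Ex]

theorem LT_bijective (x : ExS R e he) : Function.Bijective (LT he x) := by
  constructor
  · intro v w h
    have := congrArg (LT he x⁻¹) h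
    rwa [← LT_mul, ← LT_mul, inv_mul_cancel, LT_one, LT_one] at this
  · intro v
    exact ⟨LT he x⁻¹ v, by rw [← LT_mul, mul_inv_cancel, LT_one]⟩

theorem RT_eq (x : ExS R e he) (v : e) : RT he x v = - LT he x⁻¹ (-v) := by
  apply Subtype.ext
  rw [coe_RT, Submodule.coe_neg, coe_LT, Submodule.coe_neg, R.Ex_neg, InvMemClass.coe_inv,
    ← mul_inv_rev, Lo_inv, neg_neg]

theorem exists_left_inverse (e : Submodule ℝ R.V) :
    ∃ p : A →L[ℝ] e, ∀ v : e, p ((v : R.V) : A) = v := by
  obtain ⟨g, hg⟩ := LinearMap.exists_leftInverse_of_injective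
    (R.V.subtype ∘ₗ e.subtype) (by
      rw [LinearMap.ker_eq_bot]
      exact (Subtype.coe_injective).comp Subtype.coe_injective)
  refine ⟨LinearMap.toContinuousLinearMap g, fun v => ?_⟩
  have := LinearMap.congr_fun hg v
  exact this

theorem differentiable_LT (x : ExS R e he) : Differentiable ℝ (LT he x) := by
  obtain ⟨p, hp⟩ := exists_left_inverse e
  have h : LT he x = fun v : e => p (lg R.m (R.toA x * ex R.m ((v : R.V) : A))) := by
    funext v
    rw [← coe_Lo_mul_Ex R, ← coe_LT he x v, hp]
  rw [h]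
  have h1 : Differentiable ℝ (fun v : e => ((v : R.V) : A)) := by
    have : (fun v : e => ((v : R.V) : A)) = (R.V.subtypeL.comp e.subtypeL : e →L[ℝ] A) := rfl
    rw [this]
    exact ContinuousLinearMap.differentiable _
  have h2 : Differentiable ℝ (fun v : e => ex R.m ((v : R.V) : A)) :=
    Differentiable.comp (g := fun v : A => ex R.m v) (f := fun v : e => ((v : R.V) : A))
      (differentiable_ex R.m) h1
  have h3 : Differentiable ℝ (fun v : e => R.toA x * ex R.m ((v : R.V) : A)) :=
    Differentiable.const_mul (𝕜 := ℝ) (E := e) h2 (R.toA (x : R.NR))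
  have h4 : Differentiable ℝ (fun v : e => lg R.m (R.toA x * ex R.m ((v : R.V) : A))) :=
    Differentiable.comp (g := fun v : A => lg R.m v)
      (f := fun v : e => R.toA x * ex R.m ((v : R.V) : A)) (differentiable_lg R.m) h3
  exact Differentiable.comp (g := fun a : A => p a)
      (f := fun v : e => lg R.m (R.toA x * ex R.m ((v : R.V) : A))) p.differentiable h4

theorem tri_LT (x : ExS R e he) (i : ℕ) (v u : e) (hu : (u : R.V) ∈ gam R e i) :
    ((LT he x (v + u) - LT he x v - u : e) : R.V) ∈ gam R e (i + 1) := by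
  have := Lo_mul_Ex_add' R (gam_le he i) (gam_succ_le he i)
    (fun x hx y hy => lie_mem_gam hx hy) (x : R.NR) v.2 hu
    ((ExS R e he).mul_mem x.2 (by rw [mem_ExS, R.Lo_Ex]; exact v.2))
  exact this

end alg

section meas

variable [MeasurableSpace A] [BorelSpace A] {R} {e : Submodule ℝ R.V}
  (he : ∀ x ∈ e, ∀ y ∈ e, ⁅x, y⁆ ∈ e)

theorem mp_LT (μ : Measure e) [μ.IsAddHaarMeasure] (x : ExS R e he) :
    MeasurePreserving (LT he x) μ μ := by
  refine tri_mp μ (differentiable_LT he x) (LT_bijective he x)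
    (fun i => (gam R e i).comap e.subtype) ?_ (c := R.m) ?_ ?_
  · rw [eq_top_iff]
    intro v _
    exact v.2
  · rw [gam_eq_bot (by omega), eq_bot_iff]
    intro v hv
    have : (v : R.V) = 0 := by simpa using hv
    simpa using this
  · intro i v u hu
    exact tri_LT he x i v u hu

theorem mp_RT (μ : Measure e) [μ.IsAddHaarMeasure] (x : ExS R e he) :
    MeasurePreserving (RT he x) μ μ := by
  have h1 : RT he x = (fun v => -v) ∘ (LT he x⁻¹) ∘ (fun v => -v) := by
    funext v
    rw [RT_eq]; rfl
  rw [h1]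
  have h2 : MeasurePreserving (fun v : e => -v) μ μ := Measure.measurePreserving_neg μ
  exact h2.comp ((mp_LT he μ x⁻¹).comp h2)

end meas

end Vale.Agent.P188.H131
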