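import Vale.Agent.P188.H131.SolvMean
import Vale.Agent.P188.H382.MeanL2

/-!
Invariant means on right `S`-sets, in particular on the right cosets `G \ S`.
-/

universe u v w

namespace Vale.Agent.P188.H131

open Vale.Agent.P188 Vale.Agent.P188.H382

/-- A nonempty right `S`-set has an invariant mean as soon as `S` has one. -/
theorem exists_invMean {S : Type u} [Group S] {X : Type v} (A : RAct S X) (x₀ : X)
    (hS : HasMean S) : ∃ μ, InvMean A μ := by
  obtain ⟨μ, hμ, hinv⟩ := hS
  refine ⟨fun f => μ (fun s => f (A.act x₀ s)), IsMean.map hμ _, fun s f hf => ?_⟩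
  have := hinv s (fun t => f (A.act x₀ t)) (hf.comp _)
  rw [← this]
  congr 1
  funext t
  show f (A.act (A.act x₀ t) s) = _
  rw [A.mul]

/-- The right cosets `G \ S` as a right `S`-set. -/
def cosetAct {S : Type u} [Group S] (G : Subgroup S) :
    RAct S (Quotient (QuotientGroup.rightRel G)) where
  act z s := Quotient.map' (fun x => x * s) (fun a b h => by
    rw [QuotientGroup.rightRel_apply] at h ⊢
    simpa [mul_assoc] using h) z
  one z := by
    induction z using Quotient.inductionOn' with
    | h x => show Quotient.mk'' (x * 1) = _; rw [mul_one]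
  mul z s t := by
    induction z using Quotient.inductionOn' with
    | h x => show Quotient.mk'' (x * s * t) = Quotient.mk'' (x * (s * t)); rw [mul_assoc]

lemma cosetAct_mk {S : Type u} [Group S] (G : Subgroup S) (x s : S) :
    (cosetAct G).act (Quotient.mk'' x) s = Quotient.mk'' (x * s) := rfl

theorem exists_invMean_cosets {S : Type u} [Group S] [Group.IsSolvable S] (G : Subgroup S) :
    ∃ μ, InvMean (cosetAct G) μ :=
  exists_invMean _ (Quotient.mk'' 1) (hasMean_of_solvable S)

end Vale.Agent.P188.H131
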