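import Vale.Agent.P188.H131.ModelC

/-!
Natural boxes of the real nilpotent group: measurability and volumes.
-/

open MeasureTheory MeasureTheory.Measure Topology Set Filter Vale.Agent.P188.H796
  Vale.Agent.P188.H615
open scoped ENNReal Pointwise

set_option linter.unusedSectionVars false

universe u v

namespace Vale.Agent.P188.H131

section nbx

variable {N : Type u} [Group N] {d n : ℕ} {D : MB N d n} {A : Type v} [NormedRing A]
  [NormedAlgebra ℝ A] [FiniteDimensional ℝ A] {R : RD D A} {ι : Type} [Fintype ι]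

/-- the box spanned by letters `X i` of sizes `r i` -/
def Gb (X : ι → R.V) (r : ι → ℝ) : Set R.V :=
  {v | ∃ y : ι → ℝ, (∀ i, |y i| ≤ 1) ∧ v = ∑ i, (y i * r i) • X i}

theorem csy_Gb (X : ι → R.V) (r : ι → ℝ) : CSy (Gb X r) where
  conv := by
    rintro _ ⟨y, hy, rfl⟩ _ ⟨z, hz, rfl⟩ a b ha hb hab
    refine ⟨fun i => a * y i + b * z i, fun i => ?_, ?_⟩
    · calc |a * y i + b * z i| ≤ |a * y i| + |b * z i| := abs_add_le _ _
        _ = a * |y i| + b * |z i| := by rw [abs_mul, abs_mul, abs_of_nonneg ha, abs_of_nonneg hb]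
        _ ≤ a * 1 + b * 1 := by gcongr <;> [exact hy i; exact hz i]
        _ = 1 := by rw [mul_one, mul_one, hab]
    · rw [Finset.smul_sum, Finset.smul_sum, ← Finset.sum_add_distrib]
      refine Finset.sum_congr rfl fun i _ => ?_
      rw [smul_smul, smul_smul, ← add_smul]
      congr 1; ring
  zero := ⟨0, by simp, by simp⟩
  neg := by
    rintro _ ⟨y, hy, rfl⟩
    refine ⟨fun i => -y i, fun i => by rw [abs_neg]; exact hy i, ?_⟩
    rw [← Finset.sum_neg_distrib]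
    refine Finset.sum_congr rfl fun i _ => ?_
    rw [neg_mul, neg_smul]

theorem Gb_smul (X : ι → R.V) (c : ℝ) (r : ι → ℝ) : Gb X (fun i => c * r i) = c • Gb X r := by
  ext v
  constructor
  · rintro ⟨y, hy, rfl⟩
    refine ⟨_, ⟨y, hy, rfl⟩, ?_⟩
    simp only
    rw [Finset.smul_sum]
    refine Finset.sum_congr rfl fun i _ => ?_
    rw [smul_smul]; congr 1; ring
  · rintro ⟨_, ⟨y, hy, rfl⟩, rfl⟩
    refine ⟨y, hy, ?_⟩
    simp only
    rw [Finset.smul_sum]
    refine Finset.sum_congr rfl fun i _ => ?_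
    rw [smul_smul]; congr 1; ring

theorem mem_Gb_letter (X : ι → R.V) {r : ι → ℝ} {i : ι} {x : ℝ} (hx : |x| ≤ r i) :
    x • X i ∈ Gb X r := by
  classical
  refine ⟨Pi.single i (x / r i), fun j => ?_, ?_⟩
  · by_cases h : j = i
    · subst h
      rw [Pi.single_eq_same, abs_div]
      have h0 : |x| ≤ |r j| := hx.trans (le_abs_self _)
      exact div_le_one_of_le₀ h0 (abs_nonneg _)
    · rw [Pi.single_eq_of_ne h, abs_zero]; exact zero_le_one
  · rw [Finset.sum_eq_single i]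
    · rw [Pi.single_eq_same]
      by_cases h : r i = 0
      · rw [h] at hx ⊢
        have : x = 0 := abs_nonpos_iff.1 hx
        rw [this]; simp
      · rw [div_mul_cancel₀ _ h]
    · intro j _ hj
      rw [Pi.single_eq_of_ne hj, zero_mul, zero_smul]
    · intro h; exact absurd (Finset.mem_univ i) h

theorem Gb_mono (X : ι → R.V) {r r' : ι → ℝ} (h0 : ∀ i, 0 ≤ r i) (h : ∀ i, r i ≤ r' i) :
    Gb X r ⊆ Gb X r' := by
  rintro _ ⟨y, hy, rfl⟩
  refine ⟨fun i => y i * r i / r' i, fun i => ?_, ?_⟩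
  · rw [abs_div, abs_mul]
    have h1 : |r i| ≤ |r' i| := by
      rw [abs_of_nonneg (h0 i), abs_of_nonneg ((h0 i).trans (h i))]; exact h i
    refine div_le_one_of_le₀ ?_ (abs_nonneg _)
    calc |y i| * |r i| ≤ 1 * |r' i| := mul_le_mul (hy i) h1 (abs_nonneg _) zero_le_one
      _ = |r' i| := one_mul _
  · refine Finset.sum_congr rfl fun i _ => ?_
    by_cases h2 : r' i = 0
    · have h3 : r i = 0 := le_antisymm (h2 ▸ h i) (h0 i)
      rw [h3, mul_zero, h2, mul_zero]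
    · rw [div_mul_cancel₀ _ h2]

/-- the box is the convex hull of a finite set -/
theorem Gb_hull (X : ι → R.V) (r : ι → ℝ) : ∃ s : Set R.V, s.Finite ∧ Gb X r = convexHull ℝ s := by
  classical
  let T : (ι → ℝ) →ₗ[ℝ] R.V :=
    ∑ i, (LinearMap.proj i : (ι → ℝ) →ₗ[ℝ] ℝ).smulRight (r i • X i)
  have hT : ∀ y, T y = ∑ i, (y i * r i) • X i := by
    intro y
    simp only [T, LinearMap.sum_apply, LinearMap.smulRight_apply, LinearMap.proj_apply, smul_smul]
  have hfin : (Set.pi univ fun _ : ι => ({-1, 1} : Set ℝ)).Finite :=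
    Set.Finite.pi fun _ => by simp
  refine ⟨T '' (Set.pi univ fun _ : ι => ({-1, 1} : Set ℝ)), hfin.image _, ?_⟩
  rw [← LinearMap.image_convexHull, convexHull_pi]
  ext v
  constructor
  · rintro ⟨y, hy, rfl⟩
    refine ⟨y, fun i _ => ?_, hT y⟩
    rw [convexHull_pair, segment_eq_Icc (by norm_num)]
    exact abs_le.1 (hy i)
  · rintro ⟨y, hy, rfl⟩
    refine ⟨y, fun i => ?_, hT y⟩
    have := hy i (mem_univ i)
    rw [convexHull_pair, segment_eq_Icc (by norm_num)] at this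
    exact abs_le.2 this

theorem nbk_hull {G : Set R.V} (hG : ∃ s : Set R.V, s.Finite ∧ G = convexHull ℝ s) (j : ℕ) :
    ∃ s : Set R.V, s.Finite ∧ nbk G j = convexHull ℝ s := by
  induction j with
  | zero => exact hG
  | succ j ih =>
    obtain ⟨s, hs, h1⟩ := hG
    obtain ⟨t, ht, h2⟩ := ih
    refine ⟨(fun p : R.V × R.V => ⁅p.1, p.2⁆) '' (s ×ˢ t), (hs.prod ht).image _, ?_⟩
    show convexHull ℝ {z | ∃ x ∈ G, ∃ y ∈ nbk G j, ⁅x, y⁆ = z} = _
    apply subset_antisymm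
    · refine convexHull_min ?_ (convex_convexHull ℝ _)
      rintro _ ⟨x, hx, y, hy, rfl⟩
      rw [h1] at hx
      rw [h2] at hy
      set H := convexHull ℝ ((fun p : R.V × R.V => ⁅p.1, p.2⁆) '' (s ×ˢ t)) with hH
      have e1 : ∀ a ∈ s, ⁅a, y⁆ ∈ H := by
        intro a ha
        have e2 : t ⊆ (LieAlgebra.ad ℝ R.V a : R.V →ₗ[ℝ] R.V) ⁻¹' H := by
          intro b hb
          exact subset_convexHull ℝ _ ⟨(a, b), ⟨ha, hb⟩, rfl⟩
        have e3 := convexHull_min e2 ((convex_convexHull ℝ _).linear_preimage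
          (LieAlgebra.ad ℝ R.V a : R.V →ₗ[ℝ] R.V))
        exact e3 hy
      have e2 : s ⊆ (-(LieAlgebra.ad ℝ R.V y : R.V →ₗ[ℝ] R.V)) ⁻¹' H := by
        intro a ha
        have := e1 a ha
        rw [← lie_skew] at this
        exact this
      have e3 := convexHull_min e2 ((convex_convexHull ℝ _).linear_preimage
          (-(LieAlgebra.ad ℝ R.V y : R.V →ₗ[ℝ] R.V)))
      have e4 := e3 hx
      have e5 : (-(LieAlgebra.ad ℝ R.V y : R.V →ₗ[ℝ] R.V)) x = ⁅x, y⁆ := by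
        rw [LinearMap.neg_apply, LieAlgebra.ad_apply, lie_skew]
      rw [mem_preimage, e5] at e4
      exact e4
    · refine convexHull_mono ?_
      rintro _ ⟨⟨a, b⟩, ⟨ha, hb⟩, rfl⟩
      exact ⟨a, by rw [h1]; exact subset_convexHull ℝ _ ha, b,
        by rw [h2]; exact subset_convexHull ℝ _ hb, rfl⟩

theorem isCompact_nb {G : Set R.V} (hG : ∃ s : Set R.V, s.Finite ∧ G = convexHull ℝ s) :
    IsCompact (nb G) := by
  have h : nb G = (fun x : Fin R.m → R.V => ∑ i, x i) '' (Set.pi univ fun i : Fin R.m => nbk G i) := by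
    ext v
    constructor
    · rintro ⟨x, hx, rfl⟩
      exact ⟨x, fun i _ => hx i, rfl⟩
    · rintro ⟨x, hx, rfl⟩
      exact ⟨x, fun i => hx i (mem_univ i), rfl⟩
  rw [h]
  refine (isCompact_univ_pi fun i => ?_).image (by fun_prop)
  obtain ⟨s, hs, h1⟩ := nbk_hull hG i
  rw [h1]
  exact hs.isCompact_convexHull ℝ

theorem isCompact_nbGb (X : ι → R.V) (r : ι → ℝ) : IsCompact (nb (Gb X r)) :=
  isCompact_nb (Gb_hull X r)

/-- natural boxes span the Lie algebra generated by the letters -/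
theorem span_nb (X : ι → R.V) {r : ι → ℝ} (hr : ∀ i, 0 < r i)
    (hX : ∀ v, v ∈ LieSubalgebra.lieSpan ℝ R.V (Set.range X)) :
    Submodule.span ℝ (nb (Gb X r)) = ⊤ := by
  have hcsv := csv_nb (csy_Gb X r)
  set C0 : ℝ := (R.m ^ 2 * 2 ^ R.m : ℝ) with hC0
  let W : LieSubalgebra ℝ R.V :=
    { Submodule.span ℝ (nb (Gb X r)) with
      lie_mem' := by
        intro x y hx hy
        have key : ∀ x ∈ nb (Gb X r), ∀ y ∈ Submodule.span ℝ (nb (Gb X r)),
            ⁅x, y⁆ ∈ Submodule.span ℝ (nb (Gb X r)) := by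
          intro x hx y hy
          induction hy using Submodule.span_induction with
          | mem y hy =>
            obtain ⟨z, hz, h⟩ := hcsv.br x hx y hy
            rw [← h]
            exact Submodule.smul_mem _ _ (Submodule.subset_span hz)
          | zero => rw [lie_zero]; exact Submodule.zero_mem _
          | add a b _ _ ha hb => rw [lie_add]; exact Submodule.add_mem _ ha hb
          | smul t a _ ha => rw [lie_smul]; exact Submodule.smul_mem _ t ha
        have hx' : x ∈ Submodule.span ℝ (nb (Gb X r)) := hx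
        have hy' : y ∈ Submodule.span ℝ (nb (Gb X r)) := hy
        show ⁅x, y⁆ ∈ Submodule.span ℝ (nb (Gb X r))
        clear hx hy
        induction hx' using Submodule.span_induction with
        | mem x hx => exact key x hx y hy'
        | zero => rw [zero_lie]; exact Submodule.zero_mem _
        | add a b _ _ ha hb => rw [add_lie]; exact Submodule.add_mem _ ha hb
        | smul t a _ ha => rw [smul_lie]; exact Submodule.smul_mem _ t ha }
  have h1 : LieSubalgebra.lieSpan ℝ R.V (Set.range X) ≤ W := by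
    refine LieSubalgebra.lieSpan_le.2 ?_
    rintro _ ⟨i, rfl⟩
    have h2 : r i • X i ∈ nb (Gb X r) :=
      sub_nb (csy_Gb X r) (mem_Gb_letter X (by rw [abs_of_pos (hr i)]))
    have h3 := (Submodule.span ℝ (nb (Gb X r))).smul_mem (r i)⁻¹ (Submodule.subset_span h2)
    rwa [inv_smul_smul₀ (hr i).ne'] at h3
  rw [eq_top_iff]
  intro v _
  exact h1 (hX v)

theorem interior_nb (X : ι → R.V) {r : ι → ℝ} (hr : ∀ i, 0 < r i)
    (hX : ∀ v, v ∈ LieSubalgebra.lieSpan ℝ R.V (Set.range X)) :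
    (interior (nb (Gb X r))).Nonempty := by
  have hc := csy_nb (csy_Gb X r)
  rw [hc.conv.interior_nonempty_iff_affineSpan_eq_top,
    AffineSubspace.affineSpan_eq_top_iff_vectorSpan_eq_top_of_nonempty ℝ R.V R.V ⟨0, hc.zero⟩,
    eq_top_iff, ← span_nb X hr hX]
  refine Submodule.span_le.2 fun v hv => ?_
  have := vsub_mem_vectorSpan ℝ hv hc.zero
  simpa using this

end nbx

section vol

variable {N : Type u} [Group N] {d n : ℕ} {D : MB N d n} {A : Type v} [NormedRing A]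
  [NormedAlgebra ℝ A] [FiniteDimensional ℝ A] {R : RD D A} {ι : Type} [Fintype ι]
  [MeasurableSpace A] [BorelSpace A] (μ : Measure R.V) [μ.IsAddHaarMeasure]

theorem vol_nb_pos (X : ι → R.V) {r : ι → ℝ} (hr : ∀ i, 0 < r i)
    (hX : ∀ v, v ∈ LieSubalgebra.lieSpan ℝ R.V (Set.range X)) : μ (nb (Gb X r)) ≠ 0 := by
  intro h
  have h1 := (isOpen_interior (s := nb (Gb X r))).measure_ne_zero μ (interior_nb X hr hX)
  exact h1 (measure_mono_null interior_subset h)

theorem vol_nb_fin (X : ι → R.V) (r : ι → ℝ) : μ (nb (Gb X r)) ≠ ⊤ :=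
  (isCompact_nbGb X r).measure_lt_top.ne

theorem vol_nb_smul (X : ι → R.V) (r : ι → ℝ) {c : ℝ} (hc : 1 ≤ c) :
    μ (nb (Gb X fun i => c * r i)) ≤
      ENNReal.ofReal (c ^ (R.m * Module.finrank ℝ R.V)) * μ (nb (Gb X r)) := by
  rw [Gb_smul]
  refine (measure_mono (nb_smul_sub (csy_Gb X r) hc)).trans (le_of_eq ?_)
  rw [addHaar_smul_of_nonneg _ (by positivity), ← pow_mul]

end vol

section S

variable {Γ : Type u} [Group Γ] {N : Subgroup Γ} [hN : N.Normal] {d n : ℕ} (D : MB N d n)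
  {ι : Type} [Fintype ι]

theorem ex_image (A : Set D.R.V) : D.ex '' A = gk D.P 1 '' (D.R.Ex '' A) := by
  rw [image_image]
  exact image_congr fun v _ => ex_eq_gk D v

/-- volume of subsets of `ker η` in logarithmic coordinates -/
theorem muD_ex {A : Set D.R.V} (hA : IsCompact A) : muD D (D.ex '' A) = volV D A := by
  have h1 : IsCompact (D.R.Ex '' A) := hA.image D.R.continuous_Ex
  rw [ex_image]
  refine (muS_image D.P (haarK D) h1.measurableSet 1).trans ?_
  unfold haarK muK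
  rw [map_apply D.R.continuous_Ex.measurable h1.measurableSet,
    preimage_image_eq _ D.R.Ex_injective]

theorem meas_ex [Countable Γ] {A : Set D.R.V} (hA : IsCompact A) :
    MeasurableSet (D.ex '' A) := by
  obtain ⟨F, hF, -⟩ := exists_F D
  have h1 : IsCompact (D.R.Ex '' A) := hA.image D.R.continuous_Ex
  rw [ex_image]
  exact measurableSet_gk_image hF 1 h1.measurableSet

/-- **natural boxes** -/
noncomputable def NBx (X : ι → D.R.V) (r : ι → ℝ) : Set D.S := D.ex '' nb (Gb X r)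

theorem mem_NBx {X : ι → D.R.V} {r : ι → ℝ} {s : D.S} :
    s ∈ NBx D X r ↔ ∃ v ∈ nb (Gb X r), D.ex v = s := Iff.rfl

theorem mem_NBx_Ex {X : ι → D.R.V} {r : ι → ℝ} {k : D.R.NR} :
    D.inN k ∈ NBx D X r ↔ D.R.Lo k ∈ nb (Gb X r) := by
  constructor
  · rintro ⟨v, hv, h⟩
    have := D.P.inK_injective h
    rw [← this, D.R.Lo_Ex]; exact hv
  · intro h
    exact ⟨_, h, by show D.inN (D.R.Ex (D.R.Lo k)) = D.inN k; rw [D.R.Ex_Lo]⟩

theorem meas_NBx [Countable Γ] (X : ι → D.R.V) (r : ι → ℝ) : MeasurableSet (NBx D X r) :=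
  meas_ex D (isCompact_nbGb X r)

theorem fin_NBx (X : ι → D.R.V) (r : ι → ℝ) : muD D (NBx D X r) ≠ ⊤ := by
  unfold NBx
  rw [muD_ex D (isCompact_nbGb X r)]
  exact vol_nb_fin (volV D) X r

theorem pos_NBx (X : ι → D.R.V) (hX : ∀ v, v ∈ LieSubalgebra.lieSpan ℝ D.R.V (Set.range X))
    {r : ι → ℝ} (hr : ∀ i, 0 < r i) : muD D (NBx D X r) ≠ 0 := by
  unfold NBx
  rw [muD_ex D (isCompact_nbGb X r)]
  exact vol_nb_pos (volV D) X hr hX

theorem smul_NBx (X : ι → D.R.V) (r : ι → ℝ) {c : ℝ} (hc : 1 ≤ c) :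
    muD D (NBx D X fun i => c * r i) ≤
      ENNReal.ofReal (c ^ (D.R.m * Module.finrank ℝ D.R.V)) * muD D (NBx D X r) := by
  unfold NBx
  rw [muD_ex D (isCompact_nbGb X _), muD_ex D (isCompact_nbGb X _)]
  exact vol_nb_smul (volV D) X r hc

/-- field `dbl` -/
theorem dbl_NBx (X : ι → D.R.V) : ∀ Λ : ℝ, 1 ≤ Λ → ∃ C' : ℝ, ∀ r : ι → ℝ,
    muD D (NBx D X fun i => Λ * r i) ≤ ENNReal.ofReal C' * muD D (NBx D X r) :=
  fun Λ hΛ => ⟨_, fun r => smul_NBx D X r hΛ⟩

/-- field `fvol` -/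
theorem fvol_NBx (X : ι → D.R.V) : ∀ ε : ℝ, 0 < ε → ∃ δ : ℝ, 0 < δ ∧ ∀ r : ι → ℝ,
    muD D (NBx D X fun i => (1 + δ) * r i) ≤ ENNReal.ofReal (1 + ε) * muD D (NBx D X r) := by
  intro ε hε
  set M := D.R.m * Module.finrank ℝ D.R.V with hM
  have h1 : Tendsto (fun δ : ℝ => (1 + δ) ^ M) (𝓝[>] 0) (𝓝 1) := by
    have : Tendsto (fun δ : ℝ => (1 + δ) ^ M) (𝓝 0) (𝓝 ((1 + 0) ^ M)) :=
      ((continuous_const.add continuous_id).pow M).tendsto 0
    rw [add_zero, one_pow] at this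
    exact this.mono_left nhdsWithin_le_nhds
  have h2 : ∀ᶠ δ : ℝ in 𝓝[>] 0, (1 + δ) ^ M < 1 + ε := h1.eventually_lt_const (by linarith)
  obtain ⟨δ, hδ, hδ0⟩ := (h2.and self_mem_nhdsWithin).exists
  have hδ0' : 0 < δ := hδ0
  refine ⟨δ, hδ0', fun r => ?_⟩
  refine (smul_NBx D X r (by linarith)).trans ?_
  gcongr

end S

section fine

variable {N : Type u} [Group N] {d n : ℕ} {D : MB N d n} {A : Type v} [NormedRing A]
  [NormedAlgebra ℝ A] [FiniteDimensional ℝ A] (R : RD D A)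

theorem nb_small {G : Set R.V} (h : CSy G) {c : ℝ} (hc0 : 0 < c) (hc : c ≤ 1) :
    nb (c • G) ⊆ c • nb G := by
  have h1 : CSy (c • G) := by
    refine ⟨h.conv.smul c, ⟨0, h.zero, by simp⟩, ?_⟩
    rintro _ ⟨x, hx, rfl⟩
    exact ⟨-x, h.neg x hx, by simp⟩
  have h2 := smul_nb_sub h1 (c := c⁻¹) (one_le_inv₀ hc0 |>.2 hc)
  rw [inv_smul_smul₀ hc0.ne'] at h2
  intro x hx
  have h3 := h2 ⟨x, hx, rfl⟩
  exact ⟨_, h3, by simp only [smul_inv_smul₀ hc0.ne']⟩

/-- **products with small boxes** -/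
theorem fmul_nb : ∃ C : ℝ, 0 ≤ C ∧ ∀ G : Set R.V, CSy G → ∀ c : ℝ, 0 < c → c ≤ 1 →
    ∀ x y : R.NR, R.Lo x ∈ nb G → R.Lo y ∈ nb (c • G) →
      R.Lo (x * y) ∈ nb ((1 + C * c) • G) ∧ R.Lo (y * x) ∈ nb ((1 + C * c) • G) := by
  obtain ⟨C, hC, H⟩ := qbchE R (C0 := (R.m ^ 2 * 2 ^ R.m : ℝ)) (by positivity)
  refine ⟨C, hC, fun G hG c hc0 hc1 x y hx hy => ?_⟩
  obtain ⟨h1, h2, -⟩ := H (nb G) (csv_nb hG) c hc0.le hc1
  have hy' := nb_small R hG hc0 hc1 hy
  have key : ∀ z : R.V, z - R.Lo x ∈ (C * c) • nb G → z ∈ nb ((1 + C * c) • G) := by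
    intro z hz
    have hcc : 0 ≤ C * c := by positivity
    refine smul_nb_sub hG (c := 1 + C * c) (by linarith) ?_
    have h3 : z = R.Lo x + (z - R.Lo x) := by abel
    rw [h3, (csy_nb hG).conv.add_smul zero_le_one hcc, one_smul]
    exact Set.add_mem_add hx hz
  exact ⟨key _ (h1 x hx y hy'), key _ (h2 x hx y hy')⟩

end fine

section SF

variable {Γ : Type u} [Group Γ] {N : Subgroup Γ} [hN : N.Normal] {d n : ℕ} (D : MB N d n)
  {ι : Type} [Fintype ι]

/-- field `fmul` (both sides) -/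
theorem fmul_NBx (X : ι → D.R.V) : ∀ ε : ℝ, 0 < ε → ∃ δ : ℝ, 0 < δ ∧ δ ≤ 1 ∧ ∀ r : ι → ℝ,
    ∀ x ∈ NBx D X r, ∀ y ∈ NBx D X (fun i => δ * r i),
      x * y ∈ NBx D X (fun i => (1 + ε) * r i) ∧ y * x ∈ NBx D X (fun i => (1 + ε) * r i) := by
  obtain ⟨C, hC, H⟩ := fmul_nb D.R
  intro ε hε
  refine ⟨min 1 (ε / (C + 1)), by positivity, min_le_left _ _, ?_⟩
  intro r x hx y hy
  set δ := min 1 (ε / (C + 1)) with hδ
  have hδ0 : 0 < δ := by positivity
  have hCδ : C * δ ≤ ε := by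
    have h1 : δ ≤ ε / (C + 1) := min_le_right _ _
    have h2 : (C + 1) * δ ≤ ε := by
      rw [le_div_iff₀ (by positivity)] at h1
      linarith
    nlinarith
  obtain ⟨v, hv, rfl⟩ := hx
  obtain ⟨w, hw, rfl⟩ := hy
  rw [Gb_smul] at hw
  obtain ⟨h1, h2⟩ := H (Gb X r) (csy_Gb X r) δ hδ0 (min_le_left _ _) (D.R.Ex v) (D.R.Ex w)
    (by rw [D.R.Lo_Ex]; exact hv) (by rw [D.R.Lo_Ex]; exact hw)
  have key : ∀ k : D.R.NR, D.R.Lo k ∈ nb ((1 + C * δ) • Gb X r) →
      D.inN k ∈ NBx D X (fun i => (1 + ε) * r i) := by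
    intro k hk
    rw [mem_NBx_Ex, Gb_smul]
    refine nb_mono ?_ hk
    rintro _ ⟨u, hu, rfl⟩
    exact (csy_Gb X r).mem_mono (by positivity) (by linarith) ⟨u, hu, rfl⟩
  refine ⟨?_, ?_⟩
  · show D.inN (D.R.Ex v) * D.inN (D.R.Ex w) ∈ _
    rw [← map_mul]
    exact key _ h1
  · show D.inN (D.R.Ex w) * D.inN (D.R.Ex v) ∈ _
    rw [← map_mul]
    exact key _ h2

end SF

end Vale.Agent.P188.H131
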