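import Vale.Agent.P188.Mean

/-!
Right-invariant means on solvable (discrete) groups.
-/

universe u v w

namespace Vale.Agent.P188.H131

open Filter Topology Vale.Agent.P188
open scoped commutatorElement

/-! ### Limits along an ultrafilter -/

/-- Limit of a bounded family along an ultrafilter. -/
noncomputable def ul {ι : Type w} (U : Ultrafilter ι) (a : ι → ℝ) : ℝ := limUnder (U : Filter ι) a

lemma tendsto_ul {ι : Type w} (U : Ultrafilter ι) {a : ι → ℝ} (ha : Bdd a) :
    Tendsto a (U : Filter ι) (𝓝 (ul U a)) := by
  obtain ⟨M, hM⟩ := ha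
  have hc : IsCompact (Set.Icc (-M) M) := isCompact_Icc
  have hle : ((U.map a : Ultrafilter ℝ) : Filter ℝ) ≤ 𝓟 (Set.Icc (-M) M) := by
    rw [Filter.le_principal_iff]
    exact Filter.mem_map.mpr (Filter.univ_mem' (fun n => _root_.abs_le.mp (hM n)))
  obtain ⟨x, _, hx⟩ := hc.ultrafilter_le_nhds (U.map a) hle
  exact tendsto_nhds_limUnder ⟨x, hx⟩

lemma ul_eq {ι : Type w} (U : Ultrafilter ι) {a : ι → ℝ} {x : ℝ}
    (h : Tendsto a (U : Filter ι) (𝓝 x)) : ul U a = x := h.limUnder_eq

/-! ### Operations on means -/

lemma IsMean.map {X : Type u} {Y : Type v} {μ : (X → ℝ) → ℝ} (h : IsMean μ) (φ : X → Y) :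
    IsMean (fun f : Y → ℝ => μ (fun x => f (φ x))) where
  add := fun _ _ hf hg => h.add _ _ (hf.comp φ) (hg.comp φ)
  smul := fun a _ hf => h.smul a _ (hf.comp φ)
  nonneg := fun _ hf h0 => h.nonneg _ (hf.comp φ) (fun _ => h0 _)
  one := h.one

lemma hasMean_of_surjective {G : Type u} {Q : Type v} [Group G] [Group Q] (φ : G →* Q)
    (hφ : Function.Surjective φ) (h : HasMean G) : HasMean Q := by
  obtain ⟨μ, hμ, hinv⟩ := h
  refine ⟨fun f => μ (fun x => f (φ x)), IsMean.map hμ φ, fun q f hf => ?_⟩
  obtain ⟨g, rfl⟩ := hφ q
  have := hinv g (fun x => f (φ x)) (hf.comp φ)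
  simp only [map_mul] at this
  exact this

lemma hasMean_of_equiv {G : Type u} {Q : Type v} [Group G] [Group Q] (φ : G ≃* Q)
    (h : HasMean G) : HasMean Q :=
  hasMean_of_surjective φ.toMonoidHom φ.surjective h

/-- Extensions. -/
lemma hasMean_extension {G : Type u} [Group G] (N : Subgroup G) [N.Normal] (hN : HasMean N)
    (hQ : HasMean (G ⧸ N)) : HasMean G := by
  obtain ⟨μ, hμ, hinv⟩ := hN
  obtain ⟨κ, hκ, hinvκ⟩ := hQ
  let ν : (G → ℝ) → (G ⧸ N) → ℝ := fun f q => μ (fun x : N => f (x * q.out))
  have hν0 : ∀ f, Bdd f → ∀ x : G, ν f (x : G ⧸ N) = μ (fun n : N => f (n * x)) := by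
    intro f hf x
    obtain ⟨n, hn⟩ := QuotientGroup.mk_out_eq_mul N x
    have hmem : x * n * x⁻¹ ∈ N := Subgroup.Normal.conj_mem inferInstance _ n.2 _
    have := hinv ⟨x * n * x⁻¹, hmem⟩ (fun m : N => f (m * x)) (hf.comp _)
    show μ (fun m : N => f (m * (x : G ⧸ N).out)) = _
    rw [← this, hn]
    congr 1
    funext m
    congr 1
    simp only [Subgroup.coe_mul]
    group
  have hν : ∀ f, Bdd f → Bdd (ν f) := by
    rintro f ⟨M, hM⟩
    exact ⟨M, fun i => hμ.abs_le (fun x => hM _)⟩
  refine ⟨fun f => κ (ν f), ⟨?_, ?_, ?_, ?_⟩, ?_⟩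
  · intro f g hf hg
    have : ν (f + g) = ν f + ν g := by
      funext i
      exact hμ.add _ _ (hf.comp _) (hg.comp _)
    simp only [this]
    exact hκ.add _ _ (hν f hf) (hν g hg)
  · intro a f hf
    have : ν (fun x => a * f x) = fun i => a * ν f i := by
      funext i
      exact hμ.smul a _ (hf.comp _)
    simp only [this]
    exact hκ.smul a _ (hν f hf)
  · intro f hf h
    apply hκ.nonneg _ (hν f hf)
    intro i
    exact hμ.nonneg _ (hf.comp _) (fun x => h _)
  · have : ν (fun _ => 1) = fun _ => 1 := by
      funext i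
      exact hμ.one
    simp only [this]
    exact hκ.one
  · intro g f hf
    have key : ν (fun x => f (x * g)) = fun q => ν f (q * (g : G ⧸ N)) := by
      funext q
      induction q using QuotientGroup.induction_on with
      | H x =>
        rw [hν0 _ (hf.comp (fun y => y * g)) x, ← QuotientGroup.mk_mul, hν0 f hf (x * g)]
        simp only [mul_assoc]
    simp only [key]
    exact hinvκ _ _ (hν f hf)

/-- Directed unions: it suffices to look at the finitely generated subgroups. -/
lemma hasMean_of_fg {G : Type u} [Group G]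
    (h : ∀ F : Finset G, HasMean (Subgroup.closure (F : Set G))) : HasMean G := by
  classical
  choose μ hμ hinv using h
  let U : Ultrafilter (Finset G) := Ultrafilter.of atTop
  have hU : (U : Filter (Finset G)) ≤ atTop := Ultrafilter.of_le _
  let ν : (G → ℝ) → Finset G → ℝ := fun f F => μ F (fun x => f x)
  have hν : ∀ f, Bdd f → Bdd (ν f) := by
    rintro f ⟨M, hM⟩
    exact ⟨M, fun F => (hμ F).abs_le (fun x => hM _)⟩
  refine ⟨fun f => ul U (ν f), ⟨?_, ?_, ?_, ?_⟩, ?_⟩
  · intro f g hf hg
    apply ul_eq
    have : ν (f + g) = fun F => ν f F + ν g F := by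
      funext F
      exact (hμ F).add _ _ (hf.comp _) (hg.comp _)
    rw [this]
    exact (tendsto_ul U (hν f hf)).add (tendsto_ul U (hν g hg))
  · intro a f hf
    apply ul_eq
    have : ν (fun x => a * f x) = fun F => a * ν f F := by
      funext F
      exact (hμ F).smul a _ (hf.comp _)
    rw [this]
    exact (tendsto_ul U (hν f hf)).const_mul a
  · intro f hf h
    exact ge_of_tendsto' (tendsto_ul U (hν f hf))
      (fun F => (hμ F).nonneg _ (hf.comp _) (fun x => h _))
  · apply ul_eq
    have : ν (fun _ => 1) = fun _ => 1 := by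
      funext F
      exact (hμ F).one
    rw [this]
    exact tendsto_const_nhds
  · intro g f hf
    apply ul_eq
    have h1 : ∀ᶠ F in (U : Filter (Finset G)), ν f F = ν (fun x => f (x * g)) F := by
      apply hU
      filter_upwards [eventually_ge_atTop {g}] with F hF
      have hg : g ∈ Subgroup.closure (F : Set G) :=
        Subgroup.subset_closure (by
          have := hF (Finset.mem_singleton_self g)
          exact_mod_cast this)
      exact (hinv F ⟨g, hg⟩ (fun x => f x) (hf.comp _)).symm
    exact (tendsto_ul U (hν f hf)).congr' h1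

lemma hasMean_int : HasMean (Multiplicative ℤ) := by
  refine hasMean_of_PolyZ 1 _ ⟨MonoidHom.id _, Function.surjective_id, ?_⟩
  show Subsingleton _
  refine ⟨fun a b => ?_⟩
  have ha : (a : Multiplicative ℤ) = 1 := a.2
  have hb : (b : Multiplicative ℤ) = 1 := b.2
  exact Subtype.ext (ha.trans hb.symm)

lemma hasMean_of_comm {A : Type u} [Group A] (hA : ∀ a b : A, a * b = b * a) : HasMean A := by
  classical
  apply hasMean_of_fg
  intro F
  induction F using Finset.induction_on with
  | empty =>
    have : Subsingleton (Subgroup.closure ((∅ : Finset A) : Set A)) := by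
      rw [Finset.coe_empty, Subgroup.closure_empty]
      infer_instance
    exact hasMean_of_subsingleton _
  | insert a F ha ih =>
    set K := Subgroup.closure ((insert a F : Finset A) : Set A) with hK
    set N : Subgroup K := (Subgroup.closure (F : Set A)).subgroupOf K with hN
    have hle : Subgroup.closure (F : Set A) ≤ K := by
      apply Subgroup.closure_mono
      simp
    have haK : a ∈ K := Subgroup.subset_closure (by simp)
    have hnorm : N.Normal := by
      refine ⟨fun n hn g => ?_⟩
      have : g * n * g⁻¹ = n := by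
        apply Subtype.ext
        simp only [Subgroup.coe_mul, Subgroup.coe_inv]
        rw [hA (g : A) (n : A)]
        group
      rwa [this]
    have h1 : HasMean N :=
      hasMean_of_equiv (Subgroup.subgroupOfEquivOfLe hle).symm ih
    refine hasMean_extension N h1 ?_
    refine hasMean_of_surjective (zpowersHom (K ⧸ N) ((⟨a, haK⟩ : K) : K ⧸ N)) ?_ hasMean_int
    intro q
    induction q using QuotientGroup.induction_on with
    | H x =>
      obtain ⟨x, hx⟩ := x
      have key : ∃ n : ℤ, ∃ y ∈ Subgroup.closure (F : Set A), x = a ^ n * y := by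
        induction hx using Subgroup.closure_induction with
        | mem z hz =>
          rw [Finset.coe_insert, Set.mem_insert_iff] at hz
          rcases hz with rfl | hz
          · exact ⟨1, 1, one_mem _, by simp⟩
          · exact ⟨0, z, Subgroup.subset_closure hz, by simp⟩
        | one => exact ⟨0, 1, one_mem _, by simp⟩
        | mul z w _ _ hz hw =>
          obtain ⟨n, y, hy, rfl⟩ := hz
          obtain ⟨m, y', hy', rfl⟩ := hw
          refine ⟨n + m, y * y', mul_mem hy hy', ?_⟩
          rw [zpow_add, mul_assoc, ← mul_assoc y, hA y (a ^ m)]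
          simp only [mul_assoc]
        | inv z _ hz =>
          obtain ⟨n, y, hy, rfl⟩ := hz
          refine ⟨-n, y⁻¹, inv_mem hy, ?_⟩
          rw [mul_inv_rev, ← zpow_neg, hA]
      obtain ⟨n, y, hy, hxy⟩ := key
      refine ⟨Multiplicative.ofAdd n, ?_⟩
      rw [zpowersHom_apply, toAdd_ofAdd, ← QuotientGroup.mk_zpow, QuotientGroup.eq, hN,
        Subgroup.mem_subgroupOf]
      simp only [Subgroup.coe_mul, InvMemClass.coe_inv, SubgroupClass.coe_zpow]
      rw [hxy]
      simpa [← mul_assoc] using hy

/-- Solvable groups have right-invariant means. -/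
theorem hasMean_of_solvable (G : Type u) [Group G] [hG : Group.IsSolvable G] : HasMean G := by
  obtain ⟨N, hN⟩ := hG.solvable
  have key : ∀ i, i ≤ N → HasMean (derivedSeries G (N - i)) := by
    intro i
    induction i with
    | zero =>
      intro _
      rw [Nat.sub_zero, hN]
      exact hasMean_of_subsingleton _
    | succ i ih =>
      intro hi
      have h1 := ih (by omega)
      have e : N - i = (N - (i + 1)) + 1 := by omega
      rw [e] at h1
      set D := derivedSeries G (N - (i + 1)) with hD
      have hle : derivedSeries G (N - (i + 1) + 1) ≤ D := by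
        rw [derivedSeries_succ]
        exact Subgroup.commutator_le_left _ _
      set M : Subgroup D := (derivedSeries G (N - (i + 1) + 1)).subgroupOf D with hM
      have hnorm : M.Normal := by
        rw [hM]; infer_instance
      refine hasMean_extension M (hasMean_of_equiv (Subgroup.subgroupOfEquivOfLe hle).symm h1) ?_
      apply hasMean_of_comm
      intro a b
      induction a using QuotientGroup.induction_on with
      | H a =>
        induction b using QuotientGroup.induction_on with
        | H b =>
          rw [← QuotientGroup.mk_mul, ← QuotientGroup.mk_mul, QuotientGroup.eq, hM,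
            Subgroup.mem_subgroupOf, derivedSeries_succ]
          have h2 : ⁅(b : G)⁻¹, (a : G)⁻¹⁆ ∈ ⁅D, D⁆ :=
            Subgroup.commutator_mem_commutator (inv_mem b.2) (inv_mem a.2)
          have h3 : ((((a * b)⁻¹ * (b * a) : D)) : G) = ⁅(b : G)⁻¹, (a : G)⁻¹⁆ := by
            simp only [commutatorElement_def, Subgroup.coe_mul, Subgroup.coe_inv]
            group
          rw [h3]
          exact h2
  have h0 := key N le_rfl
  rw [Nat.sub_self, derivedSeries_zero] at h0
  exact hasMean_of_equiv Subgroup.topEquiv h0

end Vale.Agent.P188.H131
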